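import Vale.Agent.P134.H491.StT1

/-! P134, package R3: sub-block UB of S-D1 (the far tails which reach the bad zone), and T1. -/

set_option linter.all false

namespace Vale.Agent.P134.H491.T1

open Vale.Agent.P134 Vale.Agent.P134.SM Vale.Agent.P134.LI Vale.Agent.P134.LI.Fct MeasureTheory
  Filter Topology

variable {lam W a t : ℝ} {B : Set R3} {x : R3}

lemma cube_exp (ha : 0 ≤ a) : a ^ 3 ≤ 384 * Real.exp (a / 4) := by
  have h := Real.pow_div_factorial_le_exp (a / 4) (by positivity) 3
  have e : (a / 4) ^ 3 / (Nat.factorial 3 : ℝ) = a ^ 3 / 384 := by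
    norm_num [Nat.factorial]
    ring
  rw [e] at h
  linarith

lemma r2_ge : (1.4:ℝ) ≤ Real.sqrt 2 := by
  rw [Real.le_sqrt (by norm_num) (by norm_num)]; norm_num

/-- the elementary exponent estimate. -/
lemma expo (hW : 0 ≤ W) (ha : W / 2 ≤ a) (hl : 0 < lam) (hl2 : lam ≤ 1 / 20) :
    Real.exp (-(2 * Real.sqrt 2) * a) * (8 * (2 * W + a) ^ 3 * Real.exp (2 * lam * (2 * W + a)))
      ≤ 384000 * Real.exp (-(2 * a)) := by
  have ha0 : 0 ≤ a := by linarith
  have h1 : (2 * W + a) ^ 3 ≤ (5 * a) ^ 3 := pow_le_pow_left₀ (by linarith) (by linarith) 3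
  have h2 := cube_exp ha0
  have h3 : (2 * W + a) ^ 3 ≤ 48000 * Real.exp (a / 4) := by
    have : (5 * a) ^ 3 = 125 * a ^ 3 := by ring
    linarith
  have h4 : Real.exp (2 * lam * (2 * W + a)) ≤ Real.exp (a / 2) := by
    apply Real.exp_le_exp.mpr
    have : 2 * lam * (2 * W + a) ≤ 2 * (1 / 20) * (5 * a) := by
      have h5 : 2 * W + a ≤ 5 * a := by linarith
      have h6 : 0 ≤ 2 * W + a := by linarith
      exact mul_le_mul (by linarith) h5 h6 (by norm_num)
    linarith
  have h7 : 8 * (2 * W + a) ^ 3 * Real.exp (2 * lam * (2 * W + a))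
      ≤ 8 * (48000 * Real.exp (a / 4)) * Real.exp (a / 2) :=
    mul_le_mul (by linarith) h4 (Real.exp_pos _).le (by positivity)
  refine (mul_le_mul_of_nonneg_left h7 (Real.exp_pos _).le).trans ?_
  have e : Real.exp (-(2 * Real.sqrt 2) * a) * (8 * (48000 * Real.exp (a / 4)) * Real.exp (a / 2))
      = 384000 * Real.exp (-(2 * Real.sqrt 2) * a + a / 4 + a / 2) := by
    rw [Real.exp_add, Real.exp_add]; ring
  rw [e]
  refine mul_le_mul_of_nonneg_left (Real.exp_le_exp.mpr ?_) (by norm_num)
  nlinarith [r2_ge]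

lemma measurable_hB (W : ℝ) (B : Set R3) : Measurable (hB W B) := by
  have h : StronglyMeasurable (Function.uncurry fun (x : R3) (t : ℝ) =>
      (zB W B).indicator (fun z : R3 × ℝ => Real.exp (-(2 * Real.sqrt 2) * |z.2|)) (x, t)) := by
    have : Measurable ((zB W B).indicator
        (fun z : R3 × ℝ => Real.exp (-(2 * Real.sqrt 2) * |z.2|))) :=
      Measurable.indicator (by fun_prop) (measurableSet_zB W B)
    exact this.stronglyMeasurable
  have h2 := (h.integral_prod_right (ν := (volume : Measure ℝ))).measurable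
  have e : hB W B = fun x => ∫ t, (zB W B).indicator
      (fun z : R3 × ℝ => Real.exp (-(2 * Real.sqrt 2) * |z.2|)) (x, t) := by
    funext x
    rw [hB_eq, ← integral_indicator (measurableSet_tB W B x)]
    rfl
  rw [e]
  exact h2

theorem stUB : StUB := by
  refine ⟨384000, by norm_num, fun W lam B hW hlam hl20 hB => ⟨measurable_hB W B, fun x =>
    ⟨hB_nonneg W B x, ?_⟩, ?_⟩⟩
  · refine (hB_le (by linarith) B x).trans ?_
    have h1 : Real.exp (-(Real.sqrt 2) * W) ≤ Real.exp (-W) := by
      apply Real.exp_le_exp.mpr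
      nlinarith [r2_ge]
    have h2 := Real.exp_pos (-W)
    linarith
  · obtain ⟨-, -, -, -, hGi, hGs, hG7, -⟩ := H586.stGw lam hlam (by linarith)
    have h7 := hG7 B hB
    set S := ∑' b : B, Gw lam b ^ 2 with hS
    have hS0 : 0 ≤ S := tsum_nonneg fun b => sq_nonneg _
    have hBT := bad_tail (W := W) (B := B) hGi
    rw [← hBT.2]
    have hI := hBT.1
    rw [Measure.volume_eq_prod] at hI ⊢
    rw [integral_prod_symm _ hI]
    have hIr := hI.integral_prod_right
    have hK : Integrable (fun t : ℝ => if W / 2 ≤ |t| then Real.exp (-(2 * |t|)) else 0) := by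
      refine (H873.integrable_exp_abs (b := 2) (by norm_num)).mono' ?_
        (Eventually.of_forall fun t => ?_)
      · refine Measurable.aestronglyMeasurable ?_
        refine Measurable.ite ?_ (by fun_prop) measurable_const
        exact measurableSet_le measurable_const (by fun_prop)
      · split_ifs
        · simp [abs_of_pos (Real.exp_pos _)]
        · simp [(Real.exp_pos _).le]
    have hpt : ∀ t : ℝ, ∫ x : R3, (zB W B).indicator (fun z : R3 × ℝ =>
        Gw lam z.1 ^ 2 * Real.exp (-(2 * Real.sqrt 2) * |z.2|)) (x, t)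
        ≤ 384000 * S * (if W / 2 ≤ |t| then Real.exp (-(2 * |t|)) else 0) := by
      intro t
      by_cases ht : W / 2 ≤ |t|
      · rw [if_pos ht]
        have hm : MeasurableSet {x : R3 | ¬ Far B (2 * W + |t|) x} :=
          measurableSet_not_far B (2 * W + |t|)
        have e : ∫ x : R3, (zB W B).indicator (fun z : R3 × ℝ =>
            Gw lam z.1 ^ 2 * Real.exp (-(2 * Real.sqrt 2) * |z.2|)) (x, t)
            = (∫ x in {x | ¬ Far B (2 * W + |t|) x}, Gw lam x ^ 2)
              * Real.exp (-(2 * Real.sqrt 2) * |t|) := by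
          rw [← integral_indicator hm, ← integral_mul_const]
          refine integral_congr_ae (Eventually.of_forall fun x => ?_)
          simp only
          by_cases hx : Far B (2 * W + |t|) x
          · rw [Set.indicator_of_notMem (by simp [zB, hx]), Set.indicator_of_notMem (by simp [hx])]
            simp
          · have hz : ((x, t) : R3 × ℝ) ∈ zB W B := ⟨ht, hx⟩
            rw [Set.indicator_of_mem hz, Set.indicator_of_mem (by simpa using hx)]
        rw [e]
        have h1 := h7 (2 * W + |t|) (by positivity)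
        have h2 := expo (lam := lam) (a := |t|) (by linarith : 0 ≤ W) ht hlam hl20
        calc (∫ x in {x | ¬ Far B (2 * W + |t|) x}, Gw lam x ^ 2)
              * Real.exp (-(2 * Real.sqrt 2) * |t|)
            ≤ (8 * (2 * W + |t|) ^ 3 * Real.exp (2 * lam * (2 * W + |t|)) * S)
              * Real.exp (-(2 * Real.sqrt 2) * |t|) :=
              mul_le_mul_of_nonneg_right h1 (Real.exp_pos _).le
          _ = (Real.exp (-(2 * Real.sqrt 2) * |t|) *
              (8 * (2 * W + |t|) ^ 3 * Real.exp (2 * lam * (2 * W + |t|)))) * S := by ring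
          _ ≤ (384000 * Real.exp (-(2 * |t|))) * S := mul_le_mul_of_nonneg_right h2 hS0
          _ = _ := by ring
      · rw [if_neg ht]
        have e : ∀ x : R3, (zB W B).indicator (fun z : R3 × ℝ =>
            Gw lam z.1 ^ 2 * Real.exp (-(2 * Real.sqrt 2) * |z.2|)) (x, t) = 0 := fun x =>
          Set.indicator_of_notMem (fun h => ht h.1) _
        rw [integral_congr_ae (Eventually.of_forall e)]
        simp
    refine (integral_mono hIr (hK.const_mul (384000 * S)) hpt).trans ?_
    rw [integral_const_mul, H873.integral_tail (by norm_num) (by linarith : 0 ≤ W / 2)]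
    have e : (2:ℝ) / 2 * Real.exp (-(2 * (W / 2))) = Real.exp (-W) := by
      rw [div_self two_ne_zero, one_mul]; congr 1; ring
    rw [e]
    exact le_of_eq (by ring)

/-- T1, unconditional. -/
theorem stT1 : StT1 := stT1_of stUB

end Vale.Agent.P134.H491.T1
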