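import Vale.Agent.P134.H491.Tube4
import Vale.Agent.P134.H88.Reg
import Vale.Agent.P134.LI.Blocks

set_option linter.all false

/-! `StLI1` and `StLI1int` in the notation of `LI/Defs`. -/

namespace Vale.Agent.P134.H491

open Vale.Agent.P134 Vale.Agent.P134.SM MeasureTheory Filter Topology

section conv

variable {l : ℝ} {n : Fin 3 → ℝ} {B : Fin 3 → Fin 3 → ℝ}

lemma sum_sff_sq (hB : ∀ i j, B i j = B j i) (hn : ∑ i, n i ^ 2 = 1) :
    ∑ i, ∑ j, (B j i - n i * aBe n B j - (aBe n B i - n i * aB n B) * n j) ^ 2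
      = (∑ i, ∑ j, B i j ^ 2) - 2 * ∑ i, aBe n B i ^ 2 + aB n B ^ 2 := by
  have h01 := hB 1 0
  have h02 := hB 2 0
  have h12 := hB 2 1
  have hn' : n 0 ^ 2 + n 1 ^ 2 + n 2 ^ 2 = 1 := by
    simpa [Fin.sum_univ_three] using hn
  have b0 : aBe n B 0 = B 0 0 * n 0 + B 0 1 * n 1 + B 0 2 * n 2 := by
    simp [aBe, Fin.sum_univ_three]
  have b1 : aBe n B 1 = B 0 1 * n 0 + B 1 1 * n 1 + B 1 2 * n 2 := by
    simp [aBe, Fin.sum_univ_three, h01]
  have b2 : aBe n B 2 = B 0 2 * n 0 + B 1 2 * n 1 + B 2 2 * n 2 := by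
    simp [aBe, Fin.sum_univ_three, h02, h12]
  have bb : aB n B = aBe n B 0 * n 0 + aBe n B 1 * n 1 + aBe n B 2 * n 2 := by
    simp [aB, Fin.sum_univ_three]
  simp only [Fin.sum_univ_three, h01, h02, h12]
  linear_combination (2 * (aBe n B 0 ^ 2 + aBe n B 1 ^ 2 + aBe n B 2 ^ 2)
      + aB n B ^ 2 * (n 0 ^ 2 + n 1 ^ 2 + n 2 ^ 2 - 3)) * hn'
    + (4 * aBe n B 0 - 2 * aB n B * n 0) * b0 + (4 * aBe n B 1 - 2 * aB n B * n 1) * b1
    + (4 * aBe n B 2 - 2 * aB n B * n 2) * b2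
    + (-4 * aB n B - 2 * (aBe n B 0 * n 0 + aBe n B 1 * n 1 + aBe n B 2 * n 2)
      + 4 * aB n B * (n 0 ^ 2 + n 1 ^ 2 + n 2 ^ 2)) * bb

end conv

section conv2

open LI

variable {u : R3 → ℝ} {x : R3}

lemma phi_c3 (hu : Sol u) (hl : ∀ x, |u x| < 1) : ContDiff ℝ 3 (phi u) := by
  exact_mod_cast Vale.Agent.P134.H88.phi_contDiff hu hl 3

lemma wn_mul_hh (hφ : ContDiff ℝ 3 (phi u)) (h : 0 < gs (phi u) x) :
    rr u x * hh u x = aT (hB (phi u) x) - aB (fun i => nu (phi u) i x) (hB (phi u) x) := by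
  have h0 := (wn_pos h).ne'
  unfold rr hh mc
  simp_rw [pd_nu3 hφ h]
  unfold aN aT aB
  rw [← Finset.sum_div, mul_div_cancel₀ _ h0, Finset.sum_sub_distrib]
  congr 1
  exact Finset.sum_congr rfl fun i _ => by ring

lemma wn_mul_aa (hφ : ContDiff ℝ 3 (phi u)) (h : 0 < gs (phi u) x) (i j : Fin 3) :
    rr u x * aa u i j x = hB (phi u) x j i
      - nu (phi u) i x * aBe (fun i => nu (phi u) i x) (hB (phi u) x) j
      - (aBe (fun i => nu (phi u) i x) (hB (phi u) x) i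
        - nu (phi u) i x * aB (fun i => nu (phi u) i x) (hB (phi u) x)) * nu (phi u) j x := by
  have h0 := (wn_pos h).ne'
  set n : Fin 3 → ℝ := fun i => nu (phi u) i x with hn
  set B := hB (phi u) x with hBd
  have hs : ∑ k, pd k (nu (phi u) i) x * nu (phi u) k x = (aBe n B i - n i * aB n B) / wn (phi u) x := by
    simp_rw [pd_nu3 hφ h]
    unfold aN
    have : ∀ k, (B k i - n i * aBe n B k) / wn (phi u) x * nu (phi u) k x
        = (B i k * n k - n i * (aBe n B k * n k)) / wn (phi u) x := by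
      intro k
      rw [hBd, hB_symm hφ k i]
      ring
    rw [Finset.sum_congr rfl fun k _ => this k, ← Finset.sum_div, Finset.sum_sub_distrib,
      ← Finset.mul_sum]
    rfl
  unfold aa rr
  rw [hs, pd_nu3 hφ h]
  unfold aN
  field_simp
  ring

lemma Cl_eq (hφ : ContDiff ℝ 3 (phi u)) (h : 0 < gs (phi u) x) (i j : Fin 3) (t : ℝ) :
    Cl (phi u) i j x t = rr u x * cc u i j x t := by
  have h1 := wn_mul_hh hφ h
  have h2 := wn_mul_aa hφ h i j
  have h3 : rr u x * cc u i j x t = rr u x * pt u i j x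
      + t * ((rr u x * hh u x) * pt u i j x - rr u x * aa u i j x) := by
    unfold cc; ring
  rw [h3, h1, h2, hB_symm hφ j i]
  unfold Cl aC aE pt rr
  split_ifs <;> ring

lemma Jl_eq (hφ : ContDiff ℝ 3 (phi u)) (h : 0 < gs (phi u) x) (t : ℝ) :
    Jl (phi u) x t = rr u x * jj u x t := by
  have h0 : rr u x ≠ 0 := (wn_pos h).ne'
  have h1 := wn_mul_hh hφ h
  have h2 : rr u x ^ 2 * a2 u x = (∑ i, ∑ j, hB (phi u) x i j ^ 2)
      - 2 * ∑ i, aBe (fun i => nu (phi u) i x) (hB (phi u) x) i ^ 2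
        + aB (fun i => nu (phi u) i x) (hB (phi u) x) ^ 2 := by
    rw [← sum_sff_sq (fun i j => hB_symm hφ i j) (sum_nu_sq h)]
    unfold a2
    rw [Finset.mul_sum]
    refine Finset.sum_congr rfl fun i _ => ?_
    rw [Finset.mul_sum]
    refine Finset.sum_congr rfl fun j _ => ?_
    rw [← wn_mul_aa hφ h i j]; ring
  have h3 : rr u x ^ 2 * hh u x ^ 2 = (aT (hB (phi u) x)
      - aB (fun i => nu (phi u) i x) (hB (phi u) x)) ^ 2 := by rw [← h1]; ring
  have h4 : aK (fun i => nu (phi u) i x) (hB (phi u) x) / (2 * wn (phi u) x)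
      = rr u x * kk u x := by
    have h5 : aK (fun i => nu (phi u) i x) (hB (phi u) x)
        = rr u x ^ 2 * hh u x ^ 2 - rr u x ^ 2 * a2 u x := by
      rw [h3, h2]; unfold aK; ring
    rw [h5]
    have h6 : wn (phi u) x = rr u x := rfl
    rw [h6]
    unfold kk
    field_simp
  unfold Jl aJ
  rw [h4, ← h1]
  unfold jj rr
  ring

lemma tub_eq (x : R3) (t : ℝ) : tub (phi u) x t = xt u x t := rfl

lemma Jl_eq' (hφ : ContDiff ℝ 3 (phi u)) (h : 0 < gs (phi u) x) :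
    (fun s => Jl (phi u) x s) = fun s => rr u x * jj u x s := by
  funext s; exact Jl_eq hφ h s

lemma gs_of_rr (h : 0 < rr u x) : 0 < gs (phi u) x := Real.sqrt_pos.mp h

theorem stLI1 : StLI1 := by
  intro u hu hl X hX x t hr
  have h := gs_of_rr hr
  have hφ := phi_c3 hu hl
  have hXj : ∀ j, ContDiff ℝ 1 (fun y => X y j) := fun j => contDiff_pi.mp hX j
  have key := tube_div (X := fun j y => X y j) hφ h t
    (fun j => (hXj j).differentiable (by norm_num) _)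
  have e1 : (fun s => Jl (phi u) x s * ∑ j, nu (phi u) j x * X (tub (phi u) x s) j)
      = fun s => rr u x * jj u x s * dot (X (xt u x s)) (nn u x) := by
    funext s
    rw [Jl_eq hφ h]
    congr 1
    unfold dot
    exact Finset.sum_congr rfl fun j _ => by rw [mul_comm]; rfl
  have e2 : ∀ i, pd i (fun y => ∑ j, Cl (phi u) i j y t * X (tub (phi u) y t) j) x
      = pd i (fun y => rr u y * ∑ j, cc u i j y t * X (xt u y t) j) x := by
    intro i
    apply pd_congr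
    have hev : ∀ᶠ y in 𝓝 x, 0 < gs (phi u) y :=
      (c2_gs hφ).continuous.continuousAt.eventually (lt_mem_nhds h)
    filter_upwards [hev] with y hy
    rw [Finset.mul_sum]
    refine Finset.sum_congr rfl fun j _ => ?_
    rw [Cl_eq hφ hy]
    rw [tub_eq]; ring
  rw [e1, Finset.sum_congr rfl fun i _ => e2 i, Jl_eq hφ h] at key
  have e3 : dvg X (xt u x t) = ∑ j, pd j (fun y => X y j) (tub (phi u) x t) := rfl
  rw [e3, ← key]
  ring

lemma L0_eq_LI (hφ : ContDiff ℝ 3 (phi u)) {X : R3 → R3} {Ψ : R3 × ℝ → ℝ}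
    (hΨ : ContDiff ℝ 1 Ψ) {z : R3 × ℝ} (h : 0 < gs (phi u) z.1) :
    L0 (phi u) (fun j y => X y j) Ψ z = rr u z.1 * (jj u z.1 z.2 * Ψ z * dvg X (xt u z.1 z.2)
      + jj u z.1 z.2 * ptt Ψ z * dot (X (xt u z.1 z.2)) (nn u z.1)
      + dot (cdx u Ψ z) (X (xt u z.1 z.2))) := by
  have hd := hΨ.differentiable (by norm_num) z
  have a1 : Xd (phi u) (fun j y => X y j) z = dvg X (xt u z.1 z.2) := rfl
  have a2 : Xn (phi u) (fun j y => X y j) z = dot (X (xt u z.1 z.2)) (nn u z.1) := by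
    unfold Xn dot
    exact Finset.sum_congr rfl fun j _ => by rw [mul_comm]; rfl
  have a3 : dt Ψ z = ptt Ψ z := dt_eq hd
  have a4 : ∀ i, dx i Ψ z = px i Ψ z := fun i => dx_eq hd i
  have a5 : ∑ i, dx i Ψ z * Sx (phi u) (fun j y => X y j) i z
      = rr u z.1 * dot (cdx u Ψ z) (X (xt u z.1 z.2)) := by
    unfold Sx dot cdx
    simp_rw [Finset.mul_sum, Finset.sum_mul, Finset.mul_sum]
    rw [Finset.sum_comm]
    refine Finset.sum_congr rfl fun j _ => Finset.sum_congr rfl fun i _ => ?_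
    have hs : Cl (phi u) i j z.1 z.2 = Cl (phi u) j i z.1 z.2 :=
      aC_symm (fun i j => hB_symm hφ i j) z.2 i j
    rw [a4, hs, Cl_eq hφ h]
    rw [tub_eq]; ring
  unfold L0
  rw [a1, a2, a3, a5, Jl_eq hφ h]
  ring

theorem stLI1int' (hu : Sol u) (hl : ∀ x, |u x| < 1) {X : R3 → R3} (hX : ContDiff ℝ 1 X)
    {w : ℝ → ℝ} (hw : ContDiff ℝ 1 w) {Ψ : R3 × ℝ → ℝ} (hΨ : ContDiff ℝ 1 Ψ)
    (hΨc : HasCompactSupport Ψ) (hs : ∀ z ∈ tsupport Ψ, 0 < rr u z.1) :
    (Integrable fun z : R3 × ℝ => w (phi u z.1) * rr u z.1 * (jj u z.1 z.2 * Ψ z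
      * dvg X (xt u z.1 z.2)
      + jj u z.1 z.2 * ptt Ψ z * dot (X (xt u z.1 z.2)) (nn u z.1)
      + dot (cdx u Ψ z) (X (xt u z.1 z.2)))) ∧
    ∫ z : R3 × ℝ, w (phi u z.1) * rr u z.1 * (jj u z.1 z.2 * Ψ z * dvg X (xt u z.1 z.2)
      + jj u z.1 z.2 * ptt Ψ z * dot (X (xt u z.1 z.2)) (nn u z.1)
      + dot (cdx u Ψ z) (X (xt u z.1 z.2))) = 0 := by
  have hφ := phi_c3 hu hl
  have hXj : ∀ j, ContDiff ℝ 1 (fun y => X y j) := fun j => contDiff_pi.mp hX j
  obtain ⟨i1, i2⟩ := integral_L0 (X := fun j y => X y j) hφ hw hXj hΨ hΨc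
    (fun p hp => gs_of_rr (hs p hp))
  have e : (fun z : R3 × ℝ => w (phi u z.1) * L0 (phi u) (fun j y => X y j) Ψ z)
      = fun z => w (phi u z.1) * rr u z.1 * (jj u z.1 z.2 * Ψ z * dvg X (xt u z.1 z.2)
      + jj u z.1 z.2 * ptt Ψ z * dot (X (xt u z.1 z.2)) (nn u z.1)
      + dot (cdx u Ψ z) (X (xt u z.1 z.2))) := by
    funext z
    by_cases hz : z ∈ tsupport Ψ
    · rw [L0_eq_LI hφ hΨ (gs_of_rr (hs z hz))]; ring
    · have hd := hΨ.differentiable (by norm_num) z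
      have z1 : Ψ z = 0 := image_eq_zero_of_notMem_tsupport hz
      have z2 : ∀ i, dx i Ψ z = 0 := dx_zero hz
      have z3 : dt Ψ z = 0 := dt_zero hz
      have z4 : ∀ i, px i Ψ z = 0 := fun i => (dx_eq hd i).symm.trans (z2 i)
      have z5 : ptt Ψ z = 0 := (dt_eq hd).symm.trans z3
      have z6 : cdx u Ψ z = 0 := by
        funext i
        unfold cdx
        simp [z4]
      unfold L0
      simp only [z1, z2, z3, z5, z6, zero_mul, add_zero, Finset.sum_const_zero, mul_zero]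
      unfold dot
      simp
  rw [e] at i1 i2
  exact ⟨i1, i2⟩

theorem stLI1int : StLI1int := fun u hu hl X hX w hw Ψ hΨ hΨc hs =>
  (stLI1int' hu hl hX hw hΨ hΨc hs).2

end conv2

end Vale.Agent.P134.H491
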