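import Vale.Agent.P134.H160.Slice
import Vale.Agent.P134.H283.Gauss
import Vale.Agent.P134.LI.Defs

set_option linter.all false

/-! The class of potentials with bounded approximate Riccati fields: monotone solutions belong to
it, it is closed under translations and locally uniform limits, and it is inherited by lower
dimensions.  Consequence: the profiles of monotone solutions satisfy `LI.Hyp`. -/

namespace Vale.Agent.P134.H491

open Vale.Agent.P134 Vale.Agent.P134.SM MeasureTheory Filter Topology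
open Vale.Agent.P134.H160 (ins sl)

/-- Bounded approximate Riccati fields. -/
def HypN (n : ℕ) (C : ℝ) (V : (Fin n → ℝ) → ℝ) : Prop :=
  ∀ R ε : ℝ, 0 < R → 0 < ε → ∃ X : Fin n → (Fin n → ℝ) → ℝ, (∀ j, ContDiff ℝ 1 (X j)) ∧
    (∀ x ∈ box n R, ∑ j, X j x ^ 2 ≤ C ^ 2) ∧
    ∀ x ∈ box n R, ∑ j, pd j (X j) x + ∑ j, X j x ^ 2 ≤ V x + ε

section basic

variable {n : ℕ} {C : ℝ} {V : (Fin n → ℝ) → ℝ}

theorem HypN.of_pos {g : (Fin n → ℝ) → ℝ} {K : ℝ} (hK : 0 ≤ K) (hg : Nice g) (h0 : ∀ x, 0 < g x)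
    (hV : ∀ x, SM.lap g x = V x * g x) (hVK : ∀ x, |V x| ≤ K) :
    HypN n (n * H283.cH n K) V := by
  have hL : ∀ x, |H283.lap g x| ≤ K * g x := by
    intro x
    have e : H283.lap g x = V x * g x := hV x
    rw [e, abs_mul, abs_of_pos (h0 x)]
    exact mul_le_mul_of_nonneg_right (hVK x) (h0 x).le
  have hb := fun q x => H283.abs_pd_le hg hK (fun x => (h0 x).le) hL q x
  have hc := H283.cH_pos n hK
  intro R ε hR hε
  refine ⟨fun j x => pd j g x / g x, fun j => ?_, fun x _ => ?_, fun x _ => ?_⟩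
  · exact (Nice.contDiff 1 _ (hg.pd j)).div (Nice.contDiff 1 _ hg) fun x => (h0 x).ne'
  · have h1 : ∀ j, (pd j g x / g x) ^ 2 ≤ H283.cH n K ^ 2 := by
      intro j
      have h2 : |pd j g x / g x| ≤ H283.cH n K := by
        rw [abs_div, abs_of_pos (h0 x), div_le_iff₀ (h0 x)]
        exact hb j x
      exact sq_le_sq.mpr (by rw [abs_of_pos hc]; exact h2)
    calc ∑ j, (pd j g x / g x) ^ 2 ≤ ∑ _j : Fin n, H283.cH n K ^ 2 :=
          Finset.sum_le_sum fun j _ => h1 j
      _ = n * H283.cH n K ^ 2 := by simp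
      _ ≤ (n * H283.cH n K) ^ 2 := by
          rw [mul_pow]
          apply mul_le_mul_of_nonneg_right _ (sq_nonneg _)
          rcases Nat.eq_zero_or_pos n with h | h
          · subst h; simp
          · have : (1:ℝ) ≤ n := by exact_mod_cast h
            nlinarith
  · have hd := hg.1 x
    have h1 : ∀ j, pd j (fun y => pd j g y / g y) x
        = pd j (pd j g) x / g x - (pd j g x / g x) ^ 2 := by
      intro j
      rw [pd_div ((hg.pd j).1 x) hd (h0 x).ne']
      have := (h0 x).ne'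
      field_simp
    rw [Finset.sum_congr rfl fun j _ => h1 j, Finset.sum_sub_distrib, sub_add_cancel,
      ← Finset.sum_div]
    have h2 : ∑ j, pd j (pd j g) x = V x * g x := hV x
    rw [h2, mul_div_assoc, div_self (h0 x).ne', mul_one]
    linarith

theorem HypN.translate (h : HypN n C V) (a : Fin n → ℝ) : HypN n C (fun x => V (x + a)) := by
  intro R ε hR hε
  obtain ⟨X, h1, h2, h3⟩ := h (R + ‖a‖) ε (by positivity) hε
  have hb : ∀ x ∈ box n R, x + a ∈ box n (R + ‖a‖) := by
    intro x hx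
    rw [mem_box] at hx ⊢
    intro i
    calc |(x + a) i| ≤ |x i| + |a i| := abs_add_le _ _
      _ ≤ R + ‖a‖ := add_le_add (hx i) (norm_le_pi_norm a i)
  refine ⟨fun j x => X j (x + a), fun j => (h1 j).comp (contDiff_id.add contDiff_const),
    fun x hx => h2 _ (hb x hx), fun x hx => ?_⟩
  have h4 := h3 _ (hb x hx)
  have h5 : ∀ j, pd j (fun x => X j (x + a)) x = pd j (X j) (x + a) := fun j => pd_translate a
  rw [Finset.sum_congr rfl fun j _ => h5 j]
  exact h4

theorem HypN.of_approx (h : ∀ R ε : ℝ, 0 < R → 0 < ε → ∃ V' : (Fin n → ℝ) → ℝ, HypN n C V' ∧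
    ∀ x ∈ box n R, V' x ≤ V x + ε) : HypN n C V := by
  intro R ε hR hε
  obtain ⟨V', h1, h2⟩ := h R (ε / 2) hR (by linarith)
  obtain ⟨X, h3, h4, h5⟩ := h1 R (ε / 2) hR (by linarith)
  exact ⟨X, h3, h4, fun x hx => by linarith [h5 x hx, h2 x hx]⟩

/-- Cut-offs along a line. -/
lemma exists_line_cutoff {ε : ℝ} (hε : 0 < ε) : ∃ ζ κ : ℝ → ℝ, ContDiff ℝ 1 ζ ∧
    HasCompactSupport ζ ∧ (∀ t, 0 ≤ ζ t) ∧ ∫ t, ζ t = 1 ∧ Continuous κ ∧ HasCompactSupport κ ∧
    (∀ t a, deriv ζ t * a ≤ ζ t * a ^ 2 + κ t) ∧ ∫ t, κ t ≤ ε := by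
  set b : ℝ → ℝ := fun t => Real.smoothTransition (2 - t ^ 2) with hb
  have hbc : ContDiff ℝ 1 b :=
    Real.smoothTransition.contDiff.comp (contDiff_const.sub (contDiff_id.pow 2))
  have hbs : ∀ t : ℝ, 2 < |t| → b t = 0 := by
    intro t ht
    apply Real.smoothTransition.zero_of_nonpos
    have : (2:ℝ) ^ 2 ≤ |t| ^ 2 := pow_le_pow_left₀ (by norm_num) ht.le 2
    rw [sq_abs] at this
    linarith
  have hbcs : HasCompactSupport b := by
    refine HasCompactSupport.intro (isCompact_Icc (a := (-2:ℝ)) (b := 2)) fun t ht => ?_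
    apply hbs
    rw [Set.mem_Icc, ← abs_le] at ht
    exact not_le.mp ht
  have hb0 : ∀ t, 0 ≤ b t := fun t => Real.smoothTransition.nonneg _
  have hb1 : b 0 = 1 := by
    rw [hb]; apply Real.smoothTransition.one_of_one_le; norm_num
  have hsq : Continuous (fun t => b t ^ 2) := hbc.continuous.pow 2
  have hsqs : HasCompactSupport (fun t => b t ^ 2) :=
    hbcs.comp_left (g := fun s : ℝ => s ^ 2) (by simp)
  set c0 := ∫ t, b t ^ 2 with hc0
  have hc0p : 0 < c0 := by
    apply Continuous.integral_pos_of_hasCompactSupport_nonneg_nonzero (x := 0) hsq hsqs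
    · intro t; positivity
    · rw [hb1]; norm_num
  have hb'c : Continuous (deriv b) := hbc.continuous_deriv (by norm_num)
  have hb's : HasCompactSupport (deriv b) := hbcs.deriv
  set c1 := ∫ t, deriv b t ^ 2 with hc1
  have hc1n : 0 ≤ c1 := integral_nonneg fun t => sq_nonneg _
  -- the scale
  obtain ⟨L, hL0, hL⟩ : ∃ L : ℝ, 0 < L ∧ c1 / (c0 * L ^ 2) ≤ ε := by
    refine ⟨c1 / (c0 * ε) + 1, by positivity, ?_⟩
    rw [div_le_iff₀ (by positivity)]
    have h1 : c1 = ε * (c0 * (c1 / (c0 * ε))) := by field_simp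
    have h2 : 0 ≤ c1 / (c0 * ε) := by positivity
    calc c1 = ε * (c0 * (c1 / (c0 * ε))) := h1
      _ ≤ ε * (c0 * (c1 / (c0 * ε) + 1) ^ 2) := by
          apply mul_le_mul_of_nonneg_left _ hε.le
          apply mul_le_mul_of_nonneg_left _ hc0p.le
          nlinarith
  have hLi : ContDiff ℝ 1 (fun t : ℝ => t / L) := contDiff_id.div_const L
  have hcs : ∀ f : ℝ → ℝ, HasCompactSupport f → HasCompactSupport (fun t => f (t / L)) := by
    intro f hf
    have h := hf.comp_homeomorph (Homeomorph.mulRight₀ (L⁻¹) (inv_ne_zero hL0.ne'))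
    have e : (f ∘ (Homeomorph.mulRight₀ (L⁻¹) (inv_ne_zero hL0.ne'))) = fun t => f (t / L) := by
      funext t; simp [div_eq_mul_inv]
    rwa [e] at h
  have hint : ∀ f : ℝ → ℝ, ∫ t, f (t / L) = L * ∫ t, f t := by
    intro f
    rw [Measure.integral_comp_div f L, abs_of_pos hL0, smul_eq_mul]
  have hdb : ∀ t, HasDerivAt (fun t => b (t / L)) (deriv b (t / L) / L) t := by
    intro t
    have h1 := (hbc.differentiable (by norm_num) (t / L)).hasDerivAt
    have h2 : HasDerivAt (fun t : ℝ => t / L) (1 / L) t := (hasDerivAt_id t).div_const L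
    have h3 : HasDerivAt (fun t => b (t / L)) (deriv b (t / L) * (1 / L)) t :=
      HasDerivAt.comp (h₂ := b) (h := fun t : ℝ => t / L) t h1 h2
    rwa [mul_one_div] at h3
  refine ⟨fun t => b (t / L) ^ 2 / (c0 * L), fun t => deriv b (t / L) ^ 2 / (c0 * L ^ 3),
    ((hbc.comp hLi).pow 2).div_const _, ?_, fun t => by positivity, ?_, ?_, ?_, ?_, ?_⟩
  · have := hcs (fun t => b t ^ 2 / (c0 * L))
      (hsqs.comp_left (g := fun s : ℝ => s / (c0 * L)) (by simp))
    exact this
  · rw [integral_div, hint (fun t => b t ^ 2)]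
    rw [← hc0]; field_simp
  · exact ((hb'c.comp hLi.continuous).pow 2).div_const _
  · have := hcs (fun t => deriv b t ^ 2 / (c0 * L ^ 3))
      ((hb's.comp_left (g := fun s : ℝ => s ^ 2) (by simp)).comp_left
        (g := fun s : ℝ => s / (c0 * L ^ 3)) (by simp))
    exact this
  · intro t a
    have h1 : HasDerivAt (fun t => b (t / L) ^ 2 / (c0 * L))
        ((2 * b (t / L) ^ 1 * (deriv b (t / L) / L)) / (c0 * L)) t :=
      ((hdb t).pow 2).div_const _
    rw [h1.deriv]
    have h2 : 0 ≤ (b (t / L) * a - deriv b (t / L) / L) ^ 2 / (c0 * L) := by positivity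
    have h3 : b (t / L) ^ 2 / (c0 * L) * a ^ 2 + deriv b (t / L) ^ 2 / (c0 * L ^ 3)
        - (2 * b (t / L) ^ 1 * (deriv b (t / L) / L)) / (c0 * L) * a
        = (b (t / L) * a - deriv b (t / L) / L) ^ 2 / (c0 * L) := by
      field_simp; ring
    linarith
  · rw [integral_div, hint (fun t => deriv b t ^ 2), ← hc1]
    refine le_trans (le_of_eq ?_) hL
    field_simp

end basic

section red

variable {m : ℕ} {p : Fin (m + 1)}

lemma sl_mono {ζ : ℝ → ℝ} {F G : (Fin (m + 1) → ℝ) → ℝ} (hζ : Continuous ζ)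
    (hc : HasCompactSupport ζ) (h0 : ∀ t, 0 ≤ ζ t) (hF : Continuous F) (hG : Continuous G)
    (y : Fin m → ℝ) (h : ∀ s ∈ tsupport ζ, F (ins p s y) ≤ G (ins p s y)) :
    sl p ζ F y ≤ sl p ζ G y := by
  unfold sl
  refine integral_mono (H160.sl_integrable hζ hc hF y) (H160.sl_integrable hζ hc hG y) fun s => ?_
  by_cases hs : s ∈ tsupport ζ
  · exact mul_le_mul_of_nonneg_left (h s hs) (h0 s)
  · simp [image_eq_zero_of_notMem_tsupport hs]

lemma sl_sq_le {ζ : ℝ → ℝ} {F : (Fin (m + 1) → ℝ) → ℝ} (hζ : Continuous ζ)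
    (hc : HasCompactSupport ζ) (h0 : ∀ t, 0 ≤ ζ t) (h1 : ∫ t, ζ t = 1) (hF : Continuous F)
    (y : Fin m → ℝ) : sl p ζ F y ^ 2 ≤ sl p ζ (fun x => F x ^ 2) y := by
  set a := sl p ζ F y with ha
  have hi1 := H160.sl_integrable (p := p) hζ hc hF y
  have hi2 : Integrable fun s => ζ s * F (ins p s y) ^ 2 :=
    H160.sl_integrable (p := p) (F := fun x => F x ^ 2) hζ hc (hF.pow 2) y
  have hi4 : Integrable fun s => 2 * a * (ζ s * F (ins p s y)) := hi1.const_mul _
  have hi5 : Integrable fun s => ζ s * F (ins p s y) ^ 2 - 2 * a * (ζ s * F (ins p s y)) :=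
    hi2.sub hi4
  have hi3 : Integrable ζ := hζ.integrable_of_hasCompactSupport hc
  have h2 : 0 ≤ ∫ s, ζ s * (F (ins p s y) - a) ^ 2 :=
    integral_nonneg fun s => mul_nonneg (h0 s) (sq_nonneg _)
  have h3 : ∫ s, ζ s * (F (ins p s y) - a) ^ 2
      = sl p ζ (fun x => F x ^ 2) y - 2 * a * a + a ^ 2 * 1 := by
    have e : (fun s => ζ s * (F (ins p s y) - a) ^ 2)
        = fun s => (ζ s * F (ins p s y) ^ 2 - 2 * a * (ζ s * F (ins p s y))) + a ^ 2 * ζ s := by
      funext s; ring
    rw [e, integral_add hi5 (hi3.const_mul _),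
      integral_sub hi2 hi4, integral_const_mul, integral_const_mul, h1]
    have e4 : ∫ s, ζ s * F (ins p s y) = a := rfl
    rw [e4]
    rfl
  rw [h3] at h2
  linarith

/-- **Reduction of the dimension.** -/
theorem HypN.reduce {C : ℝ} {V : (Fin (m + 1) → ℝ) → ℝ} {V' : (Fin m → ℝ) → ℝ}
    (h : HypN (m + 1) C V) (hV : ∀ s y, V (ins p s y) = V' y) (hVc : Continuous V) :
    HypN m C V' := by
  intro R ε hR hε
  obtain ⟨ζ, κ, z1, z2, z3, z4, z5, z6, z7, z8⟩ := exists_line_cutoff (ε := ε / 2) (by linarith)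
  obtain ⟨T, hT⟩ : ∃ T : ℝ, ∀ s ∈ tsupport ζ, |s| ≤ T := by
    obtain ⟨T, hT⟩ := z2.isBounded.exists_norm_le
    exact ⟨T, fun s hs => hT s hs⟩
  obtain ⟨X, h1, h2, h3⟩ := h (max R T) (ε / 2) (lt_max_of_lt_left hR) (by linarith)
  have hbox : ∀ y ∈ box m R, ∀ s ∈ tsupport ζ, ins p s y ∈ box (m + 1) (max R T) := by
    intro y hy s hs
    rw [mem_box] at hy ⊢
    intro i
    rcases Fin.eq_self_or_eq_succAbove p i with rfl | ⟨k, rfl⟩
    · rw [H160.ins_same]; exact (hT s hs).trans (le_max_right _ _)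
    · rw [H160.ins_succAbove]; exact (hy k).trans (le_max_left _ _)
  have hXc : ∀ j, Continuous (X j) := fun j => (h1 j).continuous
  have hXs : ∀ j, Continuous (fun x => X j x ^ 2) := fun j => (hXc j).pow 2
  have hzc := z1.continuous
  have hJ : ∀ j : Fin m, ∀ y, sl p ζ (X (p.succAbove j)) y ^ 2
      ≤ sl p ζ (fun x => X (p.succAbove j) x ^ 2) y := fun j y =>
    sl_sq_le hzc z2 z3 z4 (hXc _) y
  have hconst : ∀ (c : ℝ) (y : Fin m → ℝ), sl p ζ (fun _ => c) y = c := by
    intro c y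
    unfold sl
    rw [integral_mul_const, z4, one_mul]
  refine ⟨fun j => sl p ζ (X (p.succAbove j)), fun j => H160.sl_contDiff_one hzc z2 (h1 _),
    fun y hy => ?_, fun y hy => ?_⟩
  · calc ∑ j, sl p ζ (X (p.succAbove j)) y ^ 2
        ≤ ∑ j, sl p ζ (fun x => X (p.succAbove j) x ^ 2) y := Finset.sum_le_sum fun j _ => hJ j y
      _ = sl p ζ (fun x => ∑ j : Fin m, X (p.succAbove j) x ^ 2) y :=
          (H160.sl_sum Finset.univ (G := fun (j : Fin m) x => X (p.succAbove j) x ^ 2)
            hzc z2 (fun j => hXs _) y).symm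
      _ ≤ sl p ζ (fun _ => C ^ 2) y := by
          refine sl_mono (F := fun x => ∑ j : Fin m, X (p.succAbove j) x ^ 2)
            (G := fun _ => C ^ 2) hzc z2 z3 (continuous_finset_sum _ fun j _ => hXs _)
            continuous_const y fun s hs => ?_
          have h4 := h2 _ (hbox y hy s hs)
          rw [Fin.sum_univ_succAbove _ p] at h4
          have h5 := sq_nonneg (X p (ins p s y))
          linarith
      _ = C ^ 2 := hconst _ y
  · have e1 : ∀ j : Fin m, pd j (sl p ζ (X (p.succAbove j))) y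
        = sl p ζ (pd (p.succAbove j) (X (p.succAbove j))) y := by
      intro j; rw [H160.pd_sl hzc z2 (h1 _)]
    have hpc : ∀ i j, Continuous (pd i (X j)) := fun i j => continuous_pd (h1 j)
    have hpp := H160.sl_pd (p := p) z1 z2 (h1 p) y
    have hκ : - sl p ζ (pd p (X p)) y ≤ sl p ζ (fun x => X p x ^ 2) y + ε / 2 := by
      rw [hpp, neg_neg]
      have hz' : HasCompactSupport (deriv ζ) := z2.deriv
      have hz'c : Continuous (deriv ζ) := z1.continuous_deriv (by norm_num)
      have i1 := H160.sl_integrable (p := p) hz'c hz' (hXc p) y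
      have i2 := H160.sl_integrable (p := p) hzc z2 ((hXc p).pow 2) y
      have i3 : Integrable κ := z5.integrable_of_hasCompactSupport z6
      calc sl p (deriv ζ) (X p) y ≤ ∫ s, (ζ s * X p (ins p s y) ^ 2 + κ s) :=
            integral_mono i1 (i2.add i3) fun s => z7 s _
        _ = sl p ζ (fun x => X p x ^ 2) y + ∫ s, κ s := integral_add i2 i3
        _ ≤ _ := by linarith
    calc ∑ j, pd j (sl p ζ (X (p.succAbove j))) y + ∑ j, sl p ζ (X (p.succAbove j)) y ^ 2
        ≤ ∑ j, sl p ζ (pd (p.succAbove j) (X (p.succAbove j))) y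
          + ∑ j, sl p ζ (fun x => X (p.succAbove j) x ^ 2) y := by
          rw [Finset.sum_congr rfl fun j _ => e1 j]
          have := Finset.sum_le_sum fun (j : Fin m) (_ : j ∈ Finset.univ) => hJ j y
          linarith
      _ = sl p ζ (fun x => ∑ j, pd j (X j) x + ∑ j, X j x ^ 2) y
          - sl p ζ (pd p (X p)) y - sl p ζ (fun x => X p x ^ 2) y := by
          have e2 : (fun x => ∑ j, pd j (X j) x + ∑ j, X j x ^ 2)
              = fun x => (pd p (X p) x + ∑ j : Fin m, pd (p.succAbove j) (X (p.succAbove j)) x)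
                + (X p x ^ 2 + ∑ j : Fin m, X (p.succAbove j) x ^ 2) := by
            funext x
            rw [Fin.sum_univ_succAbove _ p, Fin.sum_univ_succAbove _ p]
          have c1 : Continuous fun x => ∑ j : Fin m, pd (p.succAbove j) (X (p.succAbove j)) x :=
            continuous_finset_sum _ fun j _ => hpc _ _
          have c2 : Continuous fun x => ∑ j : Fin m, X (p.succAbove j) x ^ 2 :=
            continuous_finset_sum _ fun j _ => hXs _
          have c3 : Continuous fun x => pd p (X p) x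
              + ∑ j : Fin m, pd (p.succAbove j) (X (p.succAbove j)) x := (hpc p p).add c1
          have c4 : Continuous fun x => X p x ^ 2 + ∑ j : Fin m, X (p.succAbove j) x ^ 2 :=
            (hXs p).add c2
          have s1 := H160.sl_add (p := p) hzc z2 c3 c4 y
          have s2 := H160.sl_add (p := p) hzc z2 (hpc p p) c1 y
          have s3 := H160.sl_add (p := p) hzc z2 (hXs p) c2 y
          have s4 := H160.sl_sum (p := p) Finset.univ
            (G := fun (j : Fin m) x => pd (p.succAbove j) (X (p.succAbove j)) x) hzc z2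
            (fun j => hpc (p.succAbove j) (p.succAbove j)) y
          have s5 := H160.sl_sum (p := p) Finset.univ
            (G := fun (j : Fin m) x => X (p.succAbove j) x ^ 2) hzc z2
            (fun j => hXs (p.succAbove j)) y
          rw [e2, s1, s2, s3, s4, s5]
          ring
      _ ≤ sl p ζ (fun x => V x + ε / 2) y - sl p ζ (pd p (X p)) y
          - sl p ζ (fun x => X p x ^ 2) y := by
          have := sl_mono (p := p) hzc z2 z3
            (F := fun x => ∑ j, pd j (X j) x + ∑ j, X j x ^ 2) (G := fun x => V x + ε / 2)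
            ((continuous_finset_sum _ fun j _ => hpc j j).add
              (continuous_finset_sum _ fun j _ => hXs j))
            (hVc.add continuous_const) y (fun s hs => h3 _ (hbox y hy s hs))
          linarith
      _ = V' y + ε / 2 - sl p ζ (pd p (X p)) y - sl p ζ (fun x => X p x ^ 2) y := by
          have : sl p ζ (fun x => V x + ε / 2) y = V' y + ε / 2 := by
            unfold sl
            have e3 : (fun s => ζ s * (V (ins p s y) + ε / 2)) = fun s => ζ s * (V' y + ε / 2) := by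
              funext s; rw [hV]
            rw [e3, integral_mul_const, z4, one_mul]
          rw [this]
      _ ≤ V' y + ε := by linarith

end red

section final

variable {n : ℕ}

theorem HypN.of_mono {u : (Fin n → ℝ) → ℝ} (hu : Sol u) {q : Fin n} (hq : ∀ x, 0 < pd q u x) :
    HypN n (n * H283.cH n 2) (fun x => 3 * u x ^ 2 - 1) := by
  refine HypN.of_pos (by norm_num) ((Sol.nice hu).pd q) hq (fun x => Sol.lap_pd hu q x) fun x => ?_
  have h := hu.bd x
  have h1 : u x ^ 2 ≤ 1 := by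
    rw [← sq_abs]; exact pow_le_one₀ (abs_nonneg _) h
  rw [abs_le]
  constructor <;> nlinarith [sq_nonneg (u x)]

/-- Pointwise convergence of solutions is locally uniform. -/
lemma unif_of_tendsto {ι : Type*} {L : Filter ι} {F : ι → (Fin n → ℝ) → ℝ} {U : (Fin n → ℝ) → ℝ}
    (hF : ∀ t, Sol (F t)) (hU : Sol U) (hlim : ∀ x, Tendsto (fun t => F t x) L (𝓝 (U x)))
    (R : ℝ) {ε : ℝ} (hε : 0 < ε) : ∀ᶠ t in L, ∀ x ∈ box n R, |F t x - U x| ≤ ε := by
  set K : ℝ := n * (n + 1) + 1 with hK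
  have hK0 : 0 < K := by positivity
  have hdl : ∀ w : (Fin n → ℝ) → ℝ, Sol w → ∀ x y, |w y - w x| ≤ K * ‖y - x‖ := by
    intro w hw x y
    have h := hw.diff_le x (y - x)
    rw [add_sub_cancel] at h
    refine h.trans (mul_le_mul_of_nonneg_right ?_ (norm_nonneg _))
    rw [hK]; linarith
  have hδ : 0 < ε / (3 * K) := by positivity
  obtain ⟨t, ht1, ht2⟩ := (isCompact_box (n := n) R).elim_nhds_subcover
    (fun x => Metric.ball x (ε / (3 * K))) (fun x _ => Metric.ball_mem_nhds x hδ)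
  have hev : ∀ᶠ s in L, ∀ c ∈ t, |F s c - U c| ≤ ε / 3 := by
    rw [Filter.eventually_all_finset]
    intro c _
    have h1 := (hlim c).sub_const (U c)
    rw [sub_self] at h1
    have h2 := h1.abs
    rw [abs_zero] at h2
    exact (h2.eventually (ge_mem_nhds (show (0:ℝ) < ε / 3 by positivity)))
  filter_upwards [hev] with s hs x hx
  obtain ⟨c, hc, hxc⟩ := Set.mem_iUnion₂.mp (ht2 hx)
  have hd : ‖x - c‖ ≤ ε / (3 * K) := by
    rw [← dist_eq_norm]; exact (Metric.mem_ball.mp hxc).le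
  have h3 : K * ‖x - c‖ ≤ ε / 3 := by
    calc K * ‖x - c‖ ≤ K * (ε / (3 * K)) := mul_le_mul_of_nonneg_left hd hK0.le
      _ = ε / 3 := by field_simp
  have h4 := (hdl _ (hF s) c x).trans h3
  have h5 := (hdl _ hU c x).trans h3
  have h6 := hs c hc
  have e : F s x - U x = (F s x - F s c) + (F s c - U c) - (U x - U c) := by ring
  rw [e]
  calc |(F s x - F s c) + (F s c - U c) - (U x - U c)|
      ≤ |(F s x - F s c) + (F s c - U c)| + |U x - U c| := abs_sub _ _
    _ ≤ |F s x - F s c| + |F s c - U c| + |U x - U c| := by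
        have := abs_add_le (F s x - F s c) (F s c - U c); linarith
    _ ≤ ε := by linarith

/-- The class is closed under (pointwise) limits of solutions. -/
theorem HypN.of_tendsto {ι : Type*} {L : Filter ι} [L.NeBot] {F : ι → (Fin n → ℝ) → ℝ}
    {U : (Fin n → ℝ) → ℝ} {C : ℝ} (hF : ∀ t, Sol (F t)) (hU : Sol U)
    (hlim : ∀ x, Tendsto (fun t => F t x) L (𝓝 (U x)))
    (hC : ∀ t, HypN n C (fun x => 3 * F t x ^ 2 - 1)) :
    HypN n C (fun x => 3 * U x ^ 2 - 1) := by
  apply HypN.of_approx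
  intro R ε hR hε
  obtain ⟨t, ht⟩ := (unif_of_tendsto hF hU hlim R (show (0:ℝ) < ε / 6 by positivity)).exists
  refine ⟨_, hC t, fun x hx => ?_⟩
  have h1 := ht x hx
  have h2 := abs_le.mp ((hF t).bd x)
  have h3 := abs_le.mp (hU.bd x)
  have h4 := abs_le.mp h1
  have h5 : F t x ^ 2 - U x ^ 2 ≤ ε / 3 := by
    have e : F t x ^ 2 - U x ^ 2 = (F t x - U x) * (F t x + U x) := by ring
    rw [e]
    calc (F t x - U x) * (F t x + U x) ≤ |(F t x - U x) * (F t x + U x)| := le_abs_self _
      _ = |F t x - U x| * |F t x + U x| := abs_mul _ _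
      _ ≤ ε / 6 * 2 := by
          apply mul_le_mul h1 _ (abs_nonneg _) (by positivity)
          rw [abs_le]; constructor <;> linarith
      _ = ε / 3 := by ring
  linarith

/-- **Profiles of monotone solutions** belong to the class one dimension below. -/
theorem profile_hypN {m : ℕ} {q : Fin (m + 1)} {u U : (Fin (m + 1) → ℝ) → ℝ} (hu : Sol u)
    (hq : ∀ x, 0 < pd q u x) (hU : Sol U)
    (hlim : ∀ x, Tendsto (fun t : ℝ => u (x + t • Pi.single q 1)) atTop (𝓝 (U x))) :
    HypN m ((m + 1 : ℕ) * H283.cH (m + 1) 2)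
      (fun y => 3 * U (q.insertNth (α := fun _ => ℝ) 0 y) ^ 2 - 1) := by
  have hinv : ∀ x (s : ℝ), U (x + s • Pi.single q 1) = U x := by
    intro x s
    have h1 := hlim (x + s • Pi.single q 1)
    have h2 : Tendsto (fun t : ℝ => u (x + (t + s) • Pi.single q 1)) atTop (𝓝 (U x)) :=
      (hlim x).comp (tendsto_atTop_add_const_right _ s tendsto_id)
    have e : (fun t : ℝ => u (x + s • Pi.single q 1 + t • Pi.single q 1))
        = fun t : ℝ => u (x + (t + s) • Pi.single q 1) := by
      funext t; rw [add_smul, add_assoc, add_comm (t • _)]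
    rw [e] at h1
    exact tendsto_nhds_unique h1 h2
  have h1 : HypN (m + 1) ((m + 1 : ℕ) * H283.cH (m + 1) 2) (fun x => 3 * U x ^ 2 - 1) := by
    refine HypN.of_tendsto (L := atTop) (F := fun (t : ℝ) x => u (x + t • Pi.single q 1))
      (fun t => hu.shift _) hU hlim fun t => ?_
    exact (HypN.of_mono hu hq).translate (t • Pi.single q 1)
  refine HypN.reduce (p := q) h1 (fun s y => ?_)
    (((hU.c2.continuous.pow 2).const_mul 3).sub continuous_const)
  have e : ins q s y = ins q 0 y + s • Pi.single q 1 := by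
    rw [H160.ins_eq, H160.ins_eq, zero_smul, zero_add]
    exact add_comm _ _
  have h2 : U (ins q s y) = U (ins q 0 y) := by rw [e, hinv]
  show 3 * U (ins q s y) ^ 2 - 1 = 3 * U (ins q 0 y) ^ 2 - 1
  rw [h2]

lemma hypC_of_hypN {C : ℝ} {V : LI.R3 → ℝ} (h : HypN 3 C V) : LI.HypC |C| V := by
  intro R ε hR hε
  obtain ⟨X, h1, h2, h3⟩ := h R ε hR hε
  refine ⟨fun x j => X j x, contDiff_pi.mpr h1, fun x hx => ?_, fun x hx => ?_⟩
  · have h4 := h2 x hx
    unfold eno
    rw [Real.sqrt_le_left (abs_nonneg _), sq_abs]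
    exact h4
  · have h4 := h3 x hx
    have e : LI.dot (fun j => X j x) (fun j => X j x) = ∑ j, X j x ^ 2 := by
      unfold LI.dot
      exact Finset.sum_congr rfl fun j _ => by ring
    rw [e]
    exact h4

lemma hyp_of_hypN {C : ℝ} {V : LI.R3 → ℝ} (h : HypN 3 C V) : LI.Hyp V := ⟨|C|, hypC_of_hypN h⟩

lemma hypN_of_hypC {C : ℝ} {V : LI.R3 → ℝ} (hC : LI.HypC C V) : HypN 3 C V := by
  intro R ε hR hε
  obtain ⟨X, h1, h2, h3⟩ := hC R ε hR hε
  refine ⟨fun j x => X x j, fun j => contDiff_pi.mp h1 j, fun x hx => ?_, fun x hx => ?_⟩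
  · have h4 := h2 x hx
    have h5 : eno (X x) ^ 2 ≤ C ^ 2 := pow_le_pow_left₀ (eno_nonneg _) h4 2
    rw [eno_sq] at h5
    exact h5
  · have h4 := h3 x hx
    have e : LI.dot (X x) (X x) = ∑ j, X x j ^ 2 := by
      unfold LI.dot
      exact Finset.sum_congr rfl fun j _ => by ring
    rw [e] at h4
    exact h4

lemma hypN_of_hyp {V : LI.R3 → ℝ} (h : LI.Hyp V) : ∃ C, HypN 3 C V := by
  obtain ⟨C, hC⟩ := h
  exact ⟨C, hypN_of_hypC hC⟩

/-- `HypC` is closed under limits of solutions. -/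
theorem hypC_of_tendsto {ι : Type*} {L : Filter ι} [L.NeBot] {F : ι → LI.R3 → ℝ}
    {U : LI.R3 → ℝ} {C : ℝ} (hC0 : 0 ≤ C) (hF : ∀ t, Sol (F t)) (hU : Sol U)
    (hlim : ∀ x, Tendsto (fun t => F t x) L (𝓝 (U x)))
    (hC : ∀ t, LI.HypC C (LI.VV (F t))) : LI.HypC C (LI.VV U) := by
  have h := hypC_of_hypN (HypN.of_tendsto hF hU hlim fun t => hypN_of_hypC (hC t))
  rwa [abs_of_nonneg hC0] at h

/-- `HypC` is invariant under translations. -/
theorem hypC_translate {C : ℝ} (hC0 : 0 ≤ C) {U : LI.R3 → ℝ} (h : LI.HypC C (LI.VV U))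
    (a : LI.R3) : LI.HypC C (LI.VV fun x => U (x + a)) := by
  have h := hypC_of_hypN ((hypN_of_hypC h).translate a)
  rwa [abs_of_nonneg hC0] at h

/-- The universal constant for profiles of monotone solutions of `ℝ⁴`. -/
noncomputable def CP : ℝ := (4 : ℕ) * H283.cH 4 2

lemma CP_nonneg : 0 ≤ CP := by
  unfold CP
  have := H283.cH_pos 4 (K := 2) (by norm_num)
  positivity

/-- Profiles of monotone solutions of `ℝ⁴` satisfy `HypC` with a universal constant. -/
theorem profile_hypC {q : Fin 4} {u U : (Fin 4 → ℝ) → ℝ} (hu : Sol u)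
    (hq : ∀ x, 0 < pd q u x) (hU : Sol U)
    (hlim : ∀ x, Tendsto (fun t : ℝ => u (x + t • Pi.single q 1)) atTop (𝓝 (U x))) :
    LI.HypC CP (LI.VV fun y => U (q.insertNth (α := fun _ => ℝ) 0 y)) := by
  have h := hypC_of_hypN (profile_hypN hu hq hU hlim)
  have e : |((3 + 1 : ℕ) : ℝ) * H283.cH (3 + 1) 2| = CP := abs_of_nonneg CP_nonneg
  rwa [e] at h

/-- **Profiles of monotone solutions of `ℝ⁴` satisfy `LI.Hyp`.** -/
theorem profile_hyp {q : Fin 4} {u U : (Fin 4 → ℝ) → ℝ} (hu : Sol u)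
    (hq : ∀ x, 0 < pd q u x) (hU : Sol U)
    (hlim : ∀ x, Tendsto (fun t : ℝ => u (x + t • Pi.single q 1)) atTop (𝓝 (U x))) :
    LI.Hyp (LI.VV fun y => U (q.insertNth (α := fun _ => ℝ) 0 y)) :=
  hyp_of_hypN (profile_hypN hu hq hU hlim)

end final

end Vale.Agent.P134.H491
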