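import Vale.Agent.P134.LI.Fct1
import Vale.Agent.P134.H586.StGw

/-! P134, package R3: sub-block T1 of S-D1 (the mismatch terms). -/

set_option linter.all false

namespace Vale.Agent.P134.H491.T1

open Vale.Agent.P134 Vale.Agent.P134.SM Vale.Agent.P134.LI Vale.Agent.P134.LI.Fct MeasureTheory
  Filter Topology

variable {CX s3 δ W lam C1 μ c2 Cp ε κ R r s t M N : ℝ} {u : R3 → ℝ} {B : Set R3} {η : R3 → ℝ}
  {w : ℝ → ℝ} {χ om b v0 : R3 → ℝ} {x y : R3} {z : R3 × ℝ}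

lemma abs_nn_le (u : R3 → ℝ) (x : R3) (i : Fin 3) : |nn u x i| ≤ 1 := by
  have h := H147.nn_sq_le u x
  have h1 : nn u x i ^ 2 ≤ ∑ i, nn u x i ^ 2 :=
    Finset.single_le_sum (f := fun i => nn u x i ^ 2) (fun j _ => sq_nonneg _) (Finset.mem_univ i)
  rw [← sq_abs] at h1
  nlinarith [abs_nonneg (nn u x i)]

/-- Lipschitz estimate along the rays. -/
lemma lip_xt {f : R3 → ℝ} (hf : ContDiff ℝ 1 f) (hM : ∀ x i, |pd i f x| ≤ M) (x : R3) (t : ℝ) :
    |f (xt u x t) - f x| ≤ 3 * M * |t| := by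
  have hd : ∀ s, HasDerivAt (fun s => f (xt u x s)) (∑ i, pd i f (xt u x s) * nn u x i) s :=
    fun s => H147.hasDerivAt_xt (hf.differentiable (by norm_num)) x s
  have hb : ∀ s ∈ (Set.univ : Set ℝ), ‖∑ i, pd i f (xt u x s) * nn u x i‖ ≤ 3 * M := by
    intro s _
    rw [Real.norm_eq_abs]
    refine (Finset.abs_sum_le_sum_abs _ _).trans ?_
    have h1 : ∀ i ∈ (Finset.univ : Finset (Fin 3)), |pd i f (xt u x s) * nn u x i| ≤ M := by
      intro i _
      rw [abs_mul]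
      have h2 := hM (xt u x s) i
      have h3 := abs_nn_le u x i
      nlinarith [abs_nonneg (pd i f (xt u x s)), abs_nonneg (nn u x i)]
    refine (Finset.sum_le_sum h1).trans ?_
    simp
  have h := (convex_univ (𝕜 := ℝ) (E := ℝ)).norm_image_sub_le_of_norm_hasDerivWithin_le
    (f := fun s : ℝ => f (xt u x s)) (fun s _ => (hd s).hasDerivWithinAt) hb
    (Set.mem_univ 0) (Set.mem_univ t)
  simpa [H147.xt_zero] using h

/-- the tube integrand with weight `Gw² ω² b(x~)²`. -/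
noncomputable def F2 (ε κ lam : ℝ) (u : R3 → ℝ) (w : ℝ → ℝ) (om b v0 : R3 → ℝ) (z : R3 × ℝ) : ℝ :=
  w (phi u z.1) * rr u z.1 * (Gw lam z.1 * om z.1) ^ 2 *
    (jj u z.1 z.2 * prf ε κ u z.1 z.2 ^ 2 * (b (xt u z.1 z.2) ^ 2 * v0 (xt u z.1 z.2)))

/-- the tube integrand of the statement. -/
noncomputable def F1 (s3 ε κ : ℝ) (u : R3 → ℝ) (w : ℝ → ℝ) (η om b v0 : R3 → ℝ) (z : R3 × ℝ) : ℝ :=
  w (phi u z.1) * rr u z.1 * (jj u z.1 z.2 * PhE s3 ε κ u η om b z ^ 2 * v0 (xt u z.1 z.2))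

lemma f2_ne (hS : SDat CX s3 δ W lam C1 u B η w χ om) (hb : BDat C1 R b)
    (h : F2 ε κ lam u w om b v0 z ≠ 0) :
    |phi u z.1| < s3 ∧ Far B (W / 4) z.1 ∧ |z.2| < dep ε κ u z.1 + 1 ∧
      eno (xt u z.1 z.2) < 2 * R := by
  unfold F2 at h
  have h1 := left_ne_zero_of_mul h
  have h2 := right_ne_zero_of_mul h
  have h3 := right_ne_zero_of_mul h1
  have h4 := left_ne_zero_of_mul (left_ne_zero_of_mul h1)
  have h5 := right_ne_zero_of_mul (left_ne_zero_of_mul h2)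
  have h6 := left_ne_zero_of_mul (right_ne_zero_of_mul h2)
  refine ⟨w_ne hS h4, ?_, ?_, ?_⟩
  · exact om_ne hS (right_ne_zero_of_mul (fun h0 => h3 (by rw [h0]; ring)))
  · by_contra hc
    push Not at hc
    exact h5 (by rw [prf_zero hc]; ring)
  · by_contra hc
    push Not at hc
    exact h6 (by rw [hb.b0 _ hc]; ring)

/-- the algebra of the pointwise comparison. -/
lemma alg {wv r o j p v G e b b' N c L E I : ℝ} (hw0 : 0 ≤ wv) (hw1 : wv ≤ 1) (hr0 : 0 ≤ r)
    (hr1 : r ≤ 1) (ho0 : 0 ≤ o) (ho1 : o ≤ 1) (hj0 : 0 ≤ j) (hj1 : j ≤ 3 / 2)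
    (hc : 0 ≤ c) (hE : 0 ≤ E) (hp : p ^ 2 ≤ c * E) (hv : |v| ≤ N) (hN : 0 ≤ N)
    (he0 : 0 ≤ e) (he1 : e ≤ G) (hb0 : 0 ≤ b) (hb1 : b ≤ 1) (hL : |b' ^ 2 - b ^ 2| ≤ L)
    (hI : (G ^ 2 - e ^ 2) * E ≤ I) :
    |wv * r * (G * o) ^ 2 * (j * p ^ 2 * (b' ^ 2 * v)) - wv * r * (j * (e * o * b * p) ^ 2 * v)|
      ≤ 3 / 2 * N * c * (G ^ 2 * (L * E)) + 3 / 2 * N * c * I := by
  have e1 : wv * r * (G * o) ^ 2 * (j * p ^ 2 * (b' ^ 2 * v))
      - wv * r * (j * (e * o * b * p) ^ 2 * v)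
      = (wv * r * o ^ 2 * j * p ^ 2) * (v * (G ^ 2 * (b' ^ 2 - b ^ 2) + (G ^ 2 - e ^ 2) * b ^ 2)) := by
    ring
  have hGe : 0 ≤ G ^ 2 - e ^ 2 := by nlinarith
  rw [e1, abs_mul (wv * r * o ^ 2 * j * p ^ 2), abs_mul v]
  have h1 : |wv * r * o ^ 2 * j * p ^ 2| ≤ 3 / 2 * (c * E) := by
    rw [abs_of_nonneg (by positivity)]
    have a1 : wv * r ≤ 1 := mul_le_one₀ hw1 hr0 hr1
    have a2 : o ^ 2 ≤ 1 := pow_le_one₀ ho0 ho1
    have a3 : wv * r * o ^ 2 ≤ 1 := mul_le_one₀ a1 (sq_nonneg _) a2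
    have a4 : wv * r * o ^ 2 * j ≤ 3 / 2 := by
      have : 0 ≤ wv * r * o ^ 2 := by positivity
      nlinarith
    exact mul_le_mul a4 hp (sq_nonneg _) (by norm_num)
  have h2 : |G ^ 2 * (b' ^ 2 - b ^ 2) + (G ^ 2 - e ^ 2) * b ^ 2| ≤ G ^ 2 * L + (G ^ 2 - e ^ 2) := by
    refine (abs_add_le _ _).trans (add_le_add ?_ ?_)
    · rw [abs_mul, abs_of_nonneg (sq_nonneg _)]
      exact mul_le_mul_of_nonneg_left hL (sq_nonneg _)
    · rw [abs_of_nonneg (by positivity)]
      exact mul_le_of_le_one_right hGe (pow_le_one₀ hb0 hb1)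
  have h3 : |v| * |G ^ 2 * (b' ^ 2 - b ^ 2) + (G ^ 2 - e ^ 2) * b ^ 2|
      ≤ N * (G ^ 2 * L + (G ^ 2 - e ^ 2)) := mul_le_mul hv h2 (abs_nonneg _) hN
  refine (mul_le_mul h1 h3 (by positivity) (by positivity)).trans ?_
  have e2 : 3 / 2 * (c * E) * (N * (G ^ 2 * L + (G ^ 2 - e ^ 2)))
      = 3 / 2 * N * c * (G ^ 2 * (L * E)) + 3 / 2 * N * c * ((G ^ 2 - e ^ 2) * E) := by ring
  rw [e2]
  have h4 : 3 / 2 * N * c * ((G ^ 2 - e ^ 2) * E) ≤ 3 / 2 * N * c * I :=
    mul_le_mul_of_nonneg_left hI (by positivity)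
  linarith

section

variable (hS : SDat CX s3 δ W lam C1 u B η w χ om) (hP : PtF s3 μ c2 Cp ε κ W u B χ)

include hS hP

lemma int_F1 (hs : 0 < s3) (hb : BDat C1 R b) (hv : Continuous v0) :
    Integrable (F1 s3 ε κ u w η om b v0) := by
  refine (fub hS hP hb (F := F1 s3 ε κ u w η om b v0) (fun z hz => ?_) (fun z hz => ?_)).1
  · have hc := cb hS hP hs hb hz
    exact (wr_cont hS hP hs hb hz).mul ((hc.j.mul
      ((phe_cd hS hP hs hb).continuous.continuousAt.pow 2)).mul (xt_cont hS hP hs hb hz hv))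
  · unfold F1
    rw [image_eq_zero_of_notMem_tsupport hz]; ring

lemma int_F2 (hs : 0 < s3) (hb : BDat C1 R b) (hv : Continuous v0) (hG : Continuous (Gw lam)) :
    Integrable (F2 ε κ lam u w om b v0) := by
  have hcp : Continuous (phi u) := (phi_cd hS 0).continuous
  set R' := 2 * R + dmx ε κ + 1 with hR'
  set K : Set (R3 × ℝ) := {z | |phi u z.1| ≤ s3 ∧ Far B (W / 4) z.1 ∧ eno z.1 ≤ R' ∧
    |z.2| ≤ dmx ε κ + 1} with hK
  have hKc : IsCompact K := by
    refine ((isCompact_eno R').prod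
      (isCompact_Icc (a := -(dmx ε κ + 1)) (b := dmx ε κ + 1))).of_isClosed_subset ?_ ?_
    · have h1 : IsClosed {z : R3 × ℝ | |phi u z.1| ≤ s3} :=
        isClosed_le (hcp.comp continuous_fst).abs continuous_const
      have h2 : IsClosed {z : R3 × ℝ | Far B (W / 4) z.1} :=
        (isClosed_far B (W / 4)).preimage continuous_fst
      have h3 : IsClosed {z : R3 × ℝ | eno z.1 ≤ R'} :=
        isClosed_le (continuous_eno.comp continuous_fst) continuous_const
      have h4 : IsClosed {z : R3 × ℝ | |z.2| ≤ dmx ε κ + 1} :=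
        isClosed_le continuous_snd.abs continuous_const
      exact h1.inter (h2.inter (h3.inter h4))
    · rintro z ⟨-, -, h3, h4⟩
      exact ⟨h3, abs_le.mp h4⟩
  refine H88.integrable_of_loc hKc (fun z hz => ?_) (fun z hz => ?_)
  · have h0 : 0 < rr u z.1 := by
      have := rr_half hS hP (x := z.1) (by linarith [hz.1]) hz.2.1
      linarith
    have hc : H88.CB u z := H88.cb (phi_cd hS) h0
    have hx : ∀ {g : R3 → ℝ}, Continuous g → ContinuousAt (fun z : R3 × ℝ => g (xt u z.1 z.2)) z :=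
      fun {g} hg => ContinuousAt.comp (g := g) hg.continuousAt hc.xt
    have hw : ContinuousAt (fun z : R3 × ℝ => w (phi u z.1)) z :=
      ContinuousAt.comp (g := w) hS.wc.continuousAt hc.ph
    have hgo : ContinuousAt (fun z : R3 × ℝ => (Gw lam z.1 * om z.1) ^ 2) z :=
      (((hG.comp continuous_fst).mul (hS.om2.continuous.comp continuous_fst)).pow 2).continuousAt
    exact ((hw.mul hc.r).mul hgo).mul ((hc.j.mul
      ((prf_continuous hS hP).continuousAt.pow 2)).mul (((hx hb.b2.continuous).pow 2).mul (hx hv)))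
  · by_contra hne
    obtain ⟨h1, h2, h3, h4⟩ := f2_ne hS hb hne
    refine hz ⟨h1.le, h2, ?_, ?_⟩
    · have h5 := eno_tri' z.1 (xt u z.1 z.2) 0
      rw [sub_zero, sub_zero, eno_comm'] at h5
      have h6 := eno_xt_sub u z.1 z.2
      have h7 := dep_le_dmx hS hP z.1
      linarith
    · linarith [dep_le_dmx hS hP z.1]

/-- the pointwise comparison. -/
lemma ptw (hs : 0 < s3) (hW : 0 < W) (hb : BDat C1 R b) (hC1 : 0 < C1) (hN : 0 < N)
    (hvb : ∀ x, eno x ≤ 2 * R + dmx ε κ + 1 → |v0 x| ≤ N)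
    (hvs : ∀ x, v0 x ≠ 0 → Far B W x ∧ ¬ Far B (2 * W) x) (z : R3 × ℝ) :
    |F2 ε κ lam u w om b v0 z - F1 s3 ε κ u w η om b v0 z|
      ≤ (3 / 2 * N * cG s3 * (6 * (C1 / R))) *
          (Gw lam z.1 ^ 2 * (|z.2| * Real.exp (-(2 * Real.sqrt 2) * |z.2|)))
        + (3 / 2 * N * cG s3) * (zB W B).indicator (fun z : R3 × ℝ =>
            Gw lam z.1 ^ 2 * Real.exp (-(2 * Real.sqrt 2) * |z.2|)) z := by
  have hR : 0 < R := by linarith [hb.R1]
  have hcG := cG_pos s3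
  set x := z.1 with hx
  set t := z.2 with ht
  set Ex := Real.exp (-(2 * Real.sqrt 2) * |t|) with hEx
  have hEx0 : 0 < Ex := Real.exp_pos _
  have hI0 : 0 ≤ (zB W B).indicator (fun z : R3 × ℝ =>
      Gw lam z.1 ^ 2 * Real.exp (-(2 * Real.sqrt 2) * |z.2|)) z :=
    Set.indicator_nonneg (fun z _ => mul_nonneg (sq_nonneg _) (Real.exp_pos _).le) z
  have hR0 : 0 ≤ (3 / 2 * N * cG s3 * (6 * (C1 / R))) * (Gw lam x ^ 2 * (|t| * Ex))
        + (3 / 2 * N * cG s3) * (zB W B).indicator (fun z : R3 × ℝ =>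
            Gw lam z.1 ^ 2 * Real.exp (-(2 * Real.sqrt 2) * |z.2|)) z := by
    have : 0 ≤ C1 / R := by positivity
    positivity
  have hF2 : F2 ε κ lam u w om b v0 z = w (phi u x) * rr u x * (Gw lam x * om x) ^ 2 *
    (jj u x t * prf ε κ u x t ^ 2 * (b (xt u x t) ^ 2 * v0 (xt u x t))) := rfl
  have hF1 : F1 s3 ε κ u w η om b v0 z = w (phi u x) * rr u x *
    (jj u x t * (EE s3 u η om b x * prf ε κ u x t) ^ 2 * v0 (xt u x t)) := rfl
  by_cases hw : w (phi u x) = 0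
  · rw [hF1, hF2, hw]
    simpa using hR0
  have hphi := w_ne hS hw
  rw [hF1, hF2, ee_eq hs hphi.le]
  by_cases hv : v0 (xt u x t) = 0
  · rw [hv]; simpa using hR0
  by_cases hom : om x = 0
  · rw [hom]; simpa using hR0
  by_cases hp : prf ε κ u x t = 0
  · rw [hp]; simpa using hR0
  by_cases hbb : b (xt u x t) = 0 ∧ b x = 0
  · rw [hbb.1, hbb.2]; simpa using hR0
  have hfar := om_ne hS hom
  have htd : |t| ≤ dep ε κ u x + 1 := by
    by_contra hc
    push Not at hc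
    exact hp (prf_zero hc.le)
  have hgeo := hP.geo x (by linarith) hfar t htd
  have hmu := hP.mu1
  have hj0 : 0 ≤ jj u x t := by linarith [hgeo.2.1]
  have hj1 : jj u x t ≤ 3 / 2 := by linarith [hgeo.2.2]
  have hr0 := H147.rr_nonneg u x
  have hr1 := H147.rr_le_one hS.hs.toSol hS.hs.lt x
  have hw0 := (hS.wb (phi u x)).1
  have hw1 := (hS.wb (phi u x)).2
  have hpe := prf_sq_le_exp (ε := ε) (κ := κ) hphi.le t
  have hom0 := (hS.omb x).1
  have hom1 := (hS.omb x).2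
  have hdx := dep_le_dmx hS hP x
  have hxt : eno (xt u x t) ≤ 2 * R + dmx ε κ + 1 := by
    rw [not_and_or] at hbb
    rcases hbb with h | h
    · have h1 : eno (xt u x t) < 2 * R := by
        by_contra hc
        push Not at hc
        exact h (hb.b0 _ hc)
      have := dmx_nonneg hS hP
      linarith
    · have h1 : eno x < 2 * R := by
        by_contra hc
        push Not at hc
        exact h (hb.b0 _ hc)
      have := eno_xt_le u x t
      linarith
  have hvN := hvb _ hxt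
  -- the factor
  have hη0 := (hS.etab x).1
  have hη1 := (hS.etab x).2
  have hb0 := (hb.bb x).1
  have hb1 := (hb.bb x).2
  have hbt0 := (hb.bb (xt u x t)).1
  have hbt1 := (hb.bb (xt u x t)).2
  have hG0 : 0 ≤ Gw lam x := (Real.exp_pos _).le
  have hlip := lip_xt (u := u) (hb.b2.of_le (by norm_num)) hb.bd x t
  have hA : |b (xt u x t) ^ 2 - b x ^ 2| ≤ 6 * (C1 / R) * |t| := by
    have e : b (xt u x t) ^ 2 - b x ^ 2 = (b (xt u x t) - b x) * (b (xt u x t) + b x) := by ring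
    rw [e, abs_mul, abs_of_nonneg (by linarith : 0 ≤ b (xt u x t) + b x)]
    have h2 : b (xt u x t) + b x ≤ 2 := by linarith
    have h3 := abs_nonneg (b (xt u x t) - b x)
    nlinarith
  have hBd : (Gw lam x ^ 2 - η x ^ 2) * Ex ≤ (zB W B).indicator (fun z : R3 × ℝ =>
            Gw lam z.1 ^ 2 * Real.exp (-(2 * Real.sqrt 2) * |z.2|)) z := by
    by_cases he : η x = Gw lam x
    · rw [he]; simpa using hI0
    · have hf4 : Far B (4 * W) x := by
        by_contra hc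
        exact he (hS.etaG x hc hphi.le)
      have hnf := (hvs _ hv).2
      have h1 := lt_abs_of_far hf4 hnf
      have h2 : z ∈ zB W B := ⟨by show W / 2 ≤ |t|; linarith, not_far_xt hnf⟩
      rw [Set.indicator_of_mem h2]
      refine mul_le_mul_of_nonneg_right ?_ hEx0.le
      linarith [sq_nonneg (η x)]
  have h := alg hw0 hw1 hr0 hr1 hom0 hom1 hj0 hj1 hcG.le hEx0.le hpe hvN hN.le hη0 hη1 hb0 hb1 hA
    hBd
  refine h.trans (le_of_eq ?_)
  ring

end

theorem stT1_of (hUB : StUB) : StT1 := by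
  intro s3 C1 hs hC1
  obtain ⟨CU, hCU, hUB⟩ := hUB
  have hcG := cG_pos s3
  refine ⟨3 / 2 * cG s3 * CU, by positivity, ?_⟩
  intro CX δ W lam μ c2 Cp ε κ u B η w χ om hW hlW hS hP H
  have hW0 : 0 < W := by linarith
  have hlam := hS.lam0
  have hl20 : lam ≤ 1 / 20 := by nlinarith
  obtain ⟨hGc, hGb, -, -, hGi, -, -, -⟩ := H586.stGw lam hlam (by linarith)
  have hGcont : Continuous (Gw lam) := (hGc 0).continuous
  set IG := ∫ x, Gw lam x ^ 2 with hIG
  set It := ∫ t : ℝ, |t| * Real.exp (-(2 * Real.sqrt 2) * |t|) with hIt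
  obtain ⟨-, -, hUB3⟩ := hUB W lam B hW hlam hl20 hS.latt
  refine ⟨3 / 2 * cG s3 * (6 * C1) * (IG * It), ?_⟩
  intro R b hb N v0 hN hvc hvb hvs
  have hR : 0 < R := by linarith [hb.R1]
  have hd0 := dmx_nonneg hS hP
  -- the hypothesis
  have hv := H (fun x => b x ^ 2 * v0 x / N)
    (((hb.b2.continuous.pow 2).mul hvc).div_const N).measurable (fun x => ?_) (fun x hx => ?_)
  rotate_left
  · by_cases hx : eno x < 2 * R
    · have h1 := hvb x (by linarith)
      have h2 := hb.bb x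
      rw [abs_div, abs_mul, abs_of_pos hN, div_le_one hN, abs_of_nonneg (sq_nonneg _)]
      have h3 : b x ^ 2 ≤ 1 := pow_le_one₀ h2.1 h2.2
      calc b x ^ 2 * |v0 x| ≤ 1 * N := mul_le_mul h3 h1 (abs_nonneg _) (by norm_num)
        _ = N := one_mul N
    · push Not at hx
      rw [hb.b0 x hx]; simp
  · refine hvs x (fun h0 => hx ?_)
    show b x ^ 2 * v0 x / N = 0
    rw [h0]; simp
  -- rewriting the two integrals
  have e1 : ∫ x, Gw lam x ^ 2 * ff u x ^ 2 * (b x ^ 2 * v0 x / N)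
      = (∫ x, (Gw lam x * b x) ^ 2 * ff u x ^ 2 * v0 x) / N := by
    rw [← integral_div]
    refine integral_congr_ae (Eventually.of_forall fun x => ?_)
    simp only
    ring
  have hI1 := int_F1 hS hP hs hb hvc
  have hI2 := int_F2 hS hP hs hb hvc hGcont
  have e2 : ∫ x, w (phi u x) * rr u x * (Gw lam x * om x) ^ 2 *
          ∫ t, jj u x t * prf ε κ u x t ^ 2 * (b (xt u x t) ^ 2 * v0 (xt u x t) / N)
      = (∫ z, F2 ε κ lam u w om b v0 z) / N := by
    have h1 : ∫ z, F2 ε κ lam u w om b v0 z = ∫ x, ∫ t, F2 ε κ lam u w om b v0 (x, t) := by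
      rw [Measure.volume_eq_prod] at hI2 ⊢
      exact integral_prod _ hI2
    rw [h1, ← integral_div]
    refine integral_congr_ae (Eventually.of_forall fun x => ?_)
    simp only
    rw [← integral_const_mul, ← integral_div]
    refine integral_congr_ae (Eventually.of_forall fun t => ?_)
    simp only [F2]
    ring
  rw [e1, e2] at hv
  -- the comparison
  have hD1 : Integrable fun z : R3 × ℝ => (3 / 2 * N * cG s3 * (6 * (C1 / R))) *
          (Gw lam z.1 ^ 2 * (|z.2| * Real.exp (-(2 * Real.sqrt 2) * |z.2|))) := by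
    refine Integrable.const_mul ?_ _
    rw [Measure.volume_eq_prod]
    exact hGi.mul_prod integrable_abs_exp
  have hBT := bad_tail (W := W) (B := B) hGi
  have hD2 := hBT.1.const_mul (3 / 2 * N * cG s3)
  have h3 : |(∫ z, F2 ε κ lam u w om b v0 z) - ∫ z, F1 s3 ε κ u w η om b v0 z|
      ≤ (3 / 2 * N * cG s3 * (6 * (C1 / R))) * (IG * It)
        + (3 / 2 * N * cG s3) * (CU * Real.exp (-W) * ∑' b : B, Gw lam b ^ 2) := by
    rw [← integral_sub hI2 hI1]
    refine (abs_integral_le_integral_abs).trans ?_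
    have h4 := integral_mono (hI2.sub hI1).abs (hD1.add hD2)
      (fun z => ptw hS hP hs hW0 hb hC1 hN hvb hvs z)
    refine h4.trans ?_
    simp only [Pi.add_apply]
    rw [integral_add hD1 hD2, integral_const_mul, integral_const_mul, hBT.2]
    refine add_le_add (le_of_eq ?_) (mul_le_mul_of_nonneg_left hUB3 (by positivity))
    congr 1
    rw [Measure.volume_eq_prod]
    exact integral_prod_mul (fun x => Gw lam x ^ 2)
      (fun t => |t| * Real.exp (-(2 * Real.sqrt 2) * |t|))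
  have h5 : |(∫ s, w s) * (∫ x, (Gw lam x * b x) ^ 2 * ff u x ^ 2 * v0 x)
      - ∫ z, F2 ε κ lam u w om b v0 z| ≤ N * Bmis W lam u B w := by
    have e3 : (∫ s, w s) * (∫ x, (Gw lam x * b x) ^ 2 * ff u x ^ 2 * v0 x)
        - ∫ z, F2 ε κ lam u w om b v0 z
        = N * ((∫ s, w s) * ((∫ x, (Gw lam x * b x) ^ 2 * ff u x ^ 2 * v0 x) / N)
          - (∫ z, F2 ε κ lam u w om b v0 z) / N) := by
      field_simp
    rw [e3, abs_mul, abs_of_pos hN]
    exact mul_le_mul_of_nonneg_left hv hN.le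
  have e6 : ∫ z : R3 × ℝ, w (phi u z.1) * rr u z.1 *
          (jj u z.1 z.2 * PhE s3 ε κ u η om b z ^ 2 * v0 (xt u z.1 z.2))
      = ∫ z, F1 s3 ε κ u w η om b v0 z := rfl
  rw [e6]
  have h7 := abs_sub_le ((∫ s, w s) * (∫ x, (Gw lam x * b x) ^ 2 * ff u x ^ 2 * v0 x))
    (∫ z, F2 ε κ lam u w om b v0 z) (∫ z, F1 s3 ε κ u w η om b v0 z)
  refine h7.trans ((add_le_add h5 h3).trans (le_of_eq ?_))
  field_simp
  ring

end Vale.Agent.P134.H491.T1
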