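import Vale.Agent.P134.H491.Hyp
import Vale.Agent.P134.H765.S3Prof

set_option linter.all false

/-! `StT4` (interface of `H765/S3Prof`). -/

namespace Vale.Agent.P134.H491

open Vale.Agent.P134 MeasureTheory Filter Topology

lemma insertNth_last (y : Fin 3 → ℝ) :
    (Fin.last 3).insertNth (α := fun _ => ℝ) 0 y = (Fin.snoc y 0 : Fin 4 → ℝ) :=
  Fin.insertNth_last' 0 y

theorem stT4 : H765.StT4 := by
  intro u U hu hpos hU hlim
  have h := profile_hyp (q := (3 : Fin 4)) hu hpos hU hlim
  have e : (fun y : LI.R3 => U ((3 : Fin 4).insertNth (α := fun _ => ℝ) 0 y)) = H765.res U := by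
    funext y
    exact congrArg U (insertNth_last y)
  rw [e] at h
  exact h

end Vale.Agent.P134.H491
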