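import Vale.Agent.P134.Bdl.B1

set_option linter.all false

namespace Vale.Agent.P134.H491

open MeasureTheory Filter Topology

/-! ## The algebra of the normal map `x ↦ x + t n(x)` -/

section alg

variable (l : ℝ) (n : Fin 3 → ℝ) (B : Fin 3 → Fin 3 → ℝ)

/-- `(B n)_i` -/
def aBe (i : Fin 3) : ℝ := ∑ j, B i j * n j
/-- `n·B n` -/
def aB : ℝ := ∑ i, aBe n B i * n i
/-- `tr B` -/
def aT : ℝ := ∑ i, B i i
/-- `2 l² K` -/
def aK : ℝ := aT B ^ 2 - 2 * aT B * aB n B - (∑ i, ∑ j, B i j ^ 2) + 2 * ∑ i, aBe n B i ^ 2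
/-- `l (H P - A)` -/
def aE (i j : Fin 3) : ℝ :=
  (if i = j then aT B - aB n B else 0) - B i j - aT B * n i * n j + n i * aBe n B j
    + aBe n B i * n j
/-- `l J` -/
noncomputable def aJ (t : ℝ) : ℝ := l + t * (aT B - aB n B) + t ^ 2 * (aK n B / (2 * l))
/-- `l C` -/
def aC (t : ℝ) (i j : Fin 3) : ℝ :=
  l * ((if i = j then 1 else 0) - n i * n j) + t * aE n B i j
/-- derivative of the normal, `∂_i n_k` -/
noncomputable def aN (i k : Fin 3) : ℝ := (B i k - n k * aBe n B i) / l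

variable {l n B}

lemma aE_symm (hB : ∀ i j, B i j = B j i) (i j : Fin 3) : aE n B i j = aE n B j i := by
  unfold aE
  rw [hB i j]
  by_cases h : i = j
  · subst h; ring
  · rw [if_neg h, if_neg (Ne.symm h)]; ring

lemma aC_symm (hB : ∀ i j, B i j = B j i) (t : ℝ) (i j : Fin 3) :
    aC l n B t i j = aC l n B t j i := by
  unfold aC
  rw [aE_symm hB i j]
  by_cases h : i = j
  · subst h; ring
  · rw [if_neg h, if_neg (Ne.symm h)]; ring

lemma aC_normal (hB : ∀ i j, B i j = B j i) (hn : ∑ i, n i ^ 2 = 1) (t : ℝ) (j : Fin 3) :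
    ∑ i, n i * aC l n B t i j = 0 := by
  have h01 := hB 1 0
  have h02 := hB 2 0
  have h12 := hB 2 1
  have hn' : n 0 ^ 2 + n 1 ^ 2 + n 2 ^ 2 = 1 := by
    simpa [Fin.sum_univ_three] using hn
  fin_cases j
  all_goals
    simp only [aC, aE, aT, aB, aBe, Fin.sum_univ_three, Fin.isValue, Fin.mk_one, Fin.zero_eta,
      Fin.reduceFinMk, Fin.reduceEq, if_true, if_false, reduceIte, h01, h02, h12, one_ne_zero,
      zero_ne_one]
  · linear_combination (- (l * n 0 - t * (B 0 0 * n 0 + B 0 1 * n 1 + B 0 2 * n 2)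
      + t * (B 0 0 + B 1 1 + B 2 2) * n 0)) * hn'
  · linear_combination (- (l * n 1 - t * (B 0 1 * n 0 + B 1 1 * n 1 + B 1 2 * n 2)
      + t * (B 0 0 + B 1 1 + B 2 2) * n 1)) * hn'
  · linear_combination (- (l * n 2 - t * (B 0 2 * n 0 + B 1 2 * n 1 + B 2 2 * n 2)
      + t * (B 0 0 + B 1 1 + B 2 2) * n 2)) * hn'

/-- Cayley–Hamilton on the tangent plane. -/
lemma aE_key (hB : ∀ i j, B i j = B j i) (hn : ∑ i, n i ^ 2 = 1) (k j : Fin 3) :
    2 * ∑ i, (B i k - n k * aBe n B i) * aE n B i j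
      = aK n B * ((if k = j then 1 else 0) - n k * n j) := by
  have h01 := hB 1 0
  have h02 := hB 2 0
  have h12 := hB 2 1
  have hn' : n 0 ^ 2 + n 1 ^ 2 + n 2 ^ 2 = 1 := by
    simpa [Fin.sum_univ_three] using hn
  fin_cases k <;> fin_cases j
  all_goals
    simp only [aK, aE, aT, aB, aBe, Fin.sum_univ_three, Fin.isValue, Fin.mk_one, Fin.zero_eta,
      Fin.reduceFinMk, Fin.reduceEq, if_true, if_false, reduceIte, h01, h02, h12, one_ne_zero,
      zero_ne_one]
  · linear_combination (2*(B 1 1)*(B 2 2) + (-2)*(B 1 2)^2) * hn'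
  · linear_combination ((-2)*(B 0 1)*(B 2 2) + 2*(B 0 2)*(B 1 2)) * hn'
  · linear_combination (2*(B 0 1)*(B 1 2) + (-2)*(B 0 2)*(B 1 1)) * hn'
  · linear_combination ((-2)*(B 0 1)*(B 2 2) + 2*(B 0 2)*(B 1 2)) * hn'
  · linear_combination (2*(B 0 0)*(B 2 2) + (-2)*(B 0 2)^2) * hn'
  · linear_combination ((-2)*(B 0 0)*(B 1 2) + 2*(B 0 1)*(B 0 2)) * hn'
  · linear_combination (2*(B 0 1)*(B 1 2) + (-2)*(B 0 2)*(B 1 1)) * hn'
  · linear_combination ((-2)*(B 0 0)*(B 1 2) + 2*(B 0 1)*(B 0 2)) * hn'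
  · linear_combination (2*(B 0 0)*(B 1 1) + (-2)*(B 0 1)^2) * hn'

/-- `(I + t Dn) C = J P`. -/
lemma aC_key (hl : l ≠ 0) (hB : ∀ i j, B i j = B j i) (hn : ∑ i, n i ^ 2 = 1) (t : ℝ)
    (k j : Fin 3) :
    ∑ i, ((if k = i then 1 else 0) + t * aN l n B i k) * aC l n B t i j
      = aJ l n B t * ((if k = j then 1 else 0) - n k * n j) := by
  have hE := aE_key hB hn k j
  have h1 : ∑ i, ((if k = i then 1 else 0) + t * aN l n B i k) * aC l n B t i j
      = aC l n B t k j + (t / l) * ∑ i, (B i k - n k * aBe n B i) * aC l n B t i j := by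
    simp only [add_mul, Finset.sum_add_distrib, ite_mul, one_mul, zero_mul, Finset.sum_ite_eq,
      Finset.mem_univ, if_true, Finset.mul_sum]
    congr 1
    refine Finset.sum_congr rfl fun i _ => ?_
    unfold aN; ring
  have h2 : ∑ i, (B i k - n k * aBe n B i) * aC l n B t i j
      = l * (B j k - n k * aBe n B j - aBe n B k * n j + aB n B * n k * n j)
        + t * ∑ i, (B i k - n k * aBe n B i) * aE n B i j := by
    have h3 : ∀ i, (B i k - n k * aBe n B i) * aC l n B t i j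
        = l * ((B i k - n k * aBe n B i) * (if i = j then 1 else 0))
          - l * n j * (B i k * n i) + l * n k * n j * (aBe n B i * n i)
          + t * ((B i k - n k * aBe n B i) * aE n B i j) := by
      intro i; unfold aC; ring
    simp only [h3, Finset.sum_add_distrib, Finset.sum_sub_distrib, ← Finset.mul_sum,
      mul_ite, mul_one, mul_zero, Finset.sum_ite_eq', Finset.mem_univ, if_true]
    have h4 : ∑ i, B i k * n i = aBe n B k := by
      unfold aBe
      exact Finset.sum_congr rfl fun i _ => by rw [hB i k]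
    rw [h4]
    unfold aB
    ring
  rw [h1, h2]
  have h5 : aC l n B t k j = l * ((if k = j then 1 else 0) - n k * n j) + t * aE n B k j := rfl
  have h6 : aE n B k j = (if k = j then aT B - aB n B else 0) - B k j - aT B * n k * n j
    + n k * aBe n B j + aBe n B k * n j := rfl
  have h7 : (if k = j then aT B - aB n B else 0) = (aT B - aB n B) * (if k = j then (1:ℝ) else 0) := by
    split_ifs <;> ring
  have h8 : ∑ i, (B i k - n k * aBe n B i) * aE n B i j
      = aK n B * ((if k = j then 1 else 0) - n k * n j) / 2 := by linarith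
  rw [h5, h6, h7, h8, hB j k]
  unfold aJ
  field_simp
  ring

/-- The divergence of `l C`. -/
lemma aC_div (hl : l ≠ 0) (hB : ∀ i j, B i j = B j i) {T : Fin 3 → Fin 3 → Fin 3 → ℝ}
    (hT1 : ∀ i j k, T i j k = T j i k) (hT2 : ∀ i j k, T i j k = T i k j) (t : ℝ)
    {dBe : Fin 3 → Fin 3 → ℝ} (hdBe : ∀ i j, dBe i j = ∑ k, (T i j k * n k + B j k * aN l n B i k))
    {dB dT : Fin 3 → ℝ} (hdB : ∀ i, dB i = ∑ j, (dBe i j * n j + aBe n B j * aN l n B i j))
    (hdT : ∀ i, dT i = ∑ k, T i k k) (j : Fin 3) :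
    ∑ i, (aBe n B i * ((if i = j then 1 else 0) - n i * n j)
        + l * (- (aN l n B i i * n j + n i * aN l n B i j))
        + t * ((if i = j then dT i - dB i else 0) - T i i j
          - (dT i * n i * n j + aT B * (aN l n B i i * n j + n i * aN l n B i j))
          + (aN l n B i i * aBe n B j + n i * dBe i j)
          + (dBe i i * n j + aBe n B i * aN l n B i j)))
      = - ((aT B - aB n B) + t * (aK n B / l)) * n j := by
  have h01 := hB 1 0
  have h02 := hB 2 0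
  have h12 := hB 2 1
  have e1 : T 1 0 0 = T 0 0 1 := by rw [hT1, hT2]
  have e2 : T 0 1 0 = T 0 0 1 := by rw [hT2]
  have e3 : T 2 0 0 = T 0 0 2 := by rw [hT1, hT2]
  have e4 : T 0 2 0 = T 0 0 2 := by rw [hT2]
  have e5 : T 1 0 1 = T 0 1 1 := by rw [hT1]
  have e6 : T 1 1 0 = T 0 1 1 := by rw [hT2, hT1]
  have e7 : T 2 0 2 = T 0 2 2 := by rw [hT1]
  have e8 : T 2 2 0 = T 0 2 2 := by rw [hT2, hT1]
  have e9 : T 2 1 1 = T 1 1 2 := by rw [hT1, hT2]
  have e10 : T 1 2 1 = T 1 1 2 := by rw [hT2]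
  have e11 : T 2 1 2 = T 1 2 2 := by rw [hT1]
  have e12 : T 2 2 1 = T 1 2 2 := by rw [hT2, hT1]
  have e13 : T 0 2 1 = T 0 1 2 := by rw [hT2]
  have e14 : T 1 0 2 = T 0 1 2 := by rw [hT1]
  have e15 : T 1 2 0 = T 0 1 2 := by rw [hT2, hT1]
  have e16 : T 2 0 1 = T 0 1 2 := by rw [hT1, hT2]
  have e17 : T 2 1 0 = T 0 1 2 := by rw [hT2, hT1, hT2]
  fin_cases j
  all_goals
    simp only [hdB, hdT, hdBe, aN, aK, aT, aB, aBe, Fin.sum_univ_three, Fin.isValue, Fin.mk_one,
      Fin.zero_eta,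
      Fin.reduceFinMk, Fin.reduceEq, if_true, if_false, reduceIte, h01, h02, h12, one_ne_zero,
      zero_ne_one, e1, e2, e3, e4, e5, e6, e7, e8, e9, e10, e11, e12, e13, e14, e15, e16, e17]
    field_simp
    ring

end alg

end Vale.Agent.P134.H491
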