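import Vale.Agent.P134.H491.Tube1
import Vale.Agent.P134.SM.Nu2

set_option linter.all false

/-! The divergence identity on the tubes `(x,t) ↦ x + t n(x)` (LI1), and its integrated form. -/

namespace Vale.Agent.P134.H491

open Vale.Agent.P134 Vale.Agent.P134.SM MeasureTheory Filter Topology

/-! ## Local calculus -/

section loc

variable {φ : (Fin 3 → ℝ) → ℝ} {x : Fin 3 → ℝ}

/-- The Hessian. -/
noncomputable def hB (φ : (Fin 3 → ℝ) → ℝ) (x : Fin 3 → ℝ) (i j : Fin 3) : ℝ := pd i (pd j φ) x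

lemma hB_symm (hφ : ContDiff ℝ 3 φ) (i j : Fin 3) : hB φ x i j = hB φ x j i :=
  pd_comm (hφ.of_le (by norm_num))

lemma c2_pd (hφ : ContDiff ℝ 3 φ) (i : Fin 3) : ContDiff ℝ 2 (pd i φ) := by
  have : ContDiff ℝ ((2:ℕ) + 1) φ := by norm_num; exact hφ
  exact_mod_cast contDiff_pd (k := 2) this

lemma c1_hB (hφ : ContDiff ℝ 3 φ) (i j : Fin 3) : ContDiff ℝ 1 (fun y => hB φ y i j) :=
  contDiff_pd_one (c2_pd hφ j)

lemma c2_gs (hφ : ContDiff ℝ 3 φ) : ContDiff ℝ 2 (gs φ) := by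
  unfold gs
  exact ContDiff.sum fun i _ => (c2_pd hφ i).pow 2

lemma cda_wn (hφ : ContDiff ℝ 3 φ) (h : 0 < gs φ x) : ContDiffAt ℝ 2 (wn φ) x :=
  (c2_gs hφ).contDiffAt.sqrt h.ne'

lemma cda_nu (hφ : ContDiff ℝ 3 φ) (h : 0 < gs φ x) (i : Fin 3) : ContDiffAt ℝ 2 (nu φ i) x := by
  unfold nu
  exact (c2_pd hφ i).contDiffAt.div (cda_wn hφ h) (wn_pos h).ne'

lemma pd_wn3 (hφ : ContDiff ℝ 3 φ) (h : 0 < gs φ x) (k : Fin 3) :
    pd k (wn φ) x = aBe (fun i => nu φ i x) (hB φ x) k := by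
  have hw := cda_wn hφ h
  have e : gs φ =ᶠ[𝓝 x] fun y => wn φ y ^ 2 := Eventually.of_forall fun y => (wn_sq φ y).symm
  have h1 : pd k (gs φ) x = 2 * wn φ x * pd k (wn φ) x := by
    rw [pd_congr e, pd_sq (da hw)]
  have h2 : pd k (gs φ) x = ∑ i, 2 * pd i φ x * pd k (pd i φ) x := by
    have : gs φ = fun y => ∑ i, (fun i y => pd i φ y ^ 2) i y := rfl
    rw [this, pd_sum]
    · refine Finset.sum_congr rfl fun i _ => ?_
      rw [pd_sq ((c2_pd hφ i).differentiable (by norm_num) x)]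
    · intro i _
      exact (((c2_pd hφ i).differentiable (by norm_num)).pow 2) x
  have h3 := (wn_pos h).ne'
  have h4 : wn φ x * pd k (wn φ) x = wn φ x * aBe (fun i => nu φ i x) (hB φ x) k := by
    have : 2 * (wn φ x * pd k (wn φ) x) = 2 * (wn φ x * aBe (fun i => nu φ i x) (hB φ x) k) := by
      rw [← mul_assoc, ← h1, h2]
      unfold aBe
      rw [Finset.mul_sum, Finset.mul_sum]
      refine Finset.sum_congr rfl fun i _ => ?_
      rw [pd_eq_wn_mul_nu h i]
      unfold hB; ring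
    linarith
  exact mul_left_cancel₀ h3 h4

lemma pd_nu3 (hφ : ContDiff ℝ 3 φ) (h : 0 < gs φ x) (i k : Fin 3) :
    pd i (nu φ k) x = aN (wn φ x) (fun i => nu φ i x) (hB φ x) i k := by
  have h3 := (wn_pos h).ne'
  unfold nu
  rw [pd_div ((c2_pd hφ k).differentiable (by norm_num) x) (da (cda_wn hφ h)) h3, pd_wn3 hφ h]
  unfold aN hB nu
  field_simp

/-- Third derivatives. -/
noncomputable def hT (φ : (Fin 3 → ℝ) → ℝ) (x : Fin 3 → ℝ) (i j k : Fin 3) : ℝ :=
  pd i (pd j (pd k φ)) x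

lemma hT1 (hφ : ContDiff ℝ 3 φ) (i j k : Fin 3) : hT φ x i j k = hT φ x j i k :=
  pd_comm (c2_pd hφ k)

lemma hT2 (hφ : ContDiff ℝ 3 φ) (i j k : Fin 3) : hT φ x i j k = hT φ x i k j := by
  unfold hT
  have : pd j (pd k φ) = pd k (pd j φ) := by
    funext y; exact pd_comm (hφ.of_le (by norm_num))
  rw [this]

lemma da_nu (hφ : ContDiff ℝ 3 φ) (h : 0 < gs φ x) (i : Fin 3) : DifferentiableAt ℝ (nu φ i) x :=
  da (cda_nu hφ h i)

lemma da_hB (hφ : ContDiff ℝ 3 φ) (i j : Fin 3) : DifferentiableAt ℝ (fun y => hB φ y i j) x :=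
  (c1_hB hφ i j).differentiable (by norm_num) x

lemma da_aBe (hφ : ContDiff ℝ 3 φ) (h : 0 < gs φ x) (j : Fin 3) :
    DifferentiableAt ℝ (fun y => aBe (fun i => nu φ i y) (hB φ y) j) x := by
  unfold aBe
  exact DifferentiableAt.fun_sum fun k _ => (da_hB hφ j k).mul (da_nu hφ h k)

lemma pd_aBe (hφ : ContDiff ℝ 3 φ) (h : 0 < gs φ x) (i j : Fin 3) :
    pd i (fun y => aBe (fun i => nu φ i y) (hB φ y) j) x
      = ∑ k, (hT φ x i j k * nu φ k x
          + hB φ x j k * aN (wn φ x) (fun i => nu φ i x) (hB φ x) i k) := by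
  unfold aBe
  rw [pd_sum Finset.univ (F := fun k y => hB φ y j k * nu φ k y)
    (fun k _ => (da_hB hφ j k).mul (da_nu hφ h k))]
  refine Finset.sum_congr rfl fun k _ => ?_
  rw [pd_mul (da_hB hφ j k) (da_nu hφ h k), pd_nu3 hφ h]
  unfold hT
  have : pd i (fun y => hB φ y j k) x = pd i (pd j (pd k φ)) x := rfl
  rw [this]; ring

lemma da_aB (hφ : ContDiff ℝ 3 φ) (h : 0 < gs φ x) :
    DifferentiableAt ℝ (fun y => aB (fun i => nu φ i y) (hB φ y)) x := by
  unfold aB
  exact DifferentiableAt.fun_sum fun k _ => (da_aBe hφ h k).mul (da_nu hφ h k)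

lemma pd_aB (hφ : ContDiff ℝ 3 φ) (h : 0 < gs φ x) (i : Fin 3) :
    pd i (fun y => aB (fun i => nu φ i y) (hB φ y)) x
      = ∑ j, (pd i (fun y => aBe (fun i => nu φ i y) (hB φ y) j) x * nu φ j x
          + aBe (fun i => nu φ i x) (hB φ x) j
            * aN (wn φ x) (fun i => nu φ i x) (hB φ x) i j) := by
  unfold aB
  rw [pd_sum Finset.univ (F := fun j y => aBe (fun i => nu φ i y) (hB φ y) j * nu φ j y)
    (fun k _ => (da_aBe hφ h k).mul (da_nu hφ h k))]
  refine Finset.sum_congr rfl fun k _ => ?_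
  rw [pd_mul (da_aBe hφ h k) (da_nu hφ h k), pd_nu3 hφ h]; ring

lemma da_aT (hφ : ContDiff ℝ 3 φ) : DifferentiableAt ℝ (fun y => aT (hB φ y)) x := by
  unfold aT
  exact DifferentiableAt.fun_sum fun k _ => da_hB hφ k k

lemma pd_aT (hφ : ContDiff ℝ 3 φ) (i : Fin 3) :
    pd i (fun y => aT (hB φ y)) x = ∑ k, hT φ x i k k := by
  unfold aT
  rw [pd_sum Finset.univ (F := fun k y => hB φ y k k) (fun k _ => da_hB hφ k k)]
  rfl

lemma pd_ite (P : Prop) [Decidable P] (f : (Fin 3 → ℝ) → ℝ) (i : Fin 3) :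
    pd i (fun y => if P then f y else 0) x = if P then pd i f x else 0 := by
  split_ifs
  · rfl
  · exact pd_const 0

/-- The matrix `|p| C(x,t)`. -/
noncomputable def Cl (φ : (Fin 3 → ℝ) → ℝ) (i j : Fin 3) (x : Fin 3 → ℝ) (t : ℝ) : ℝ :=
  aC (wn φ x) (fun i => nu φ i x) (hB φ x) t i j

/-- The Jacobian `|p| J(x,t)`. -/
noncomputable def Jl (φ : (Fin 3 → ℝ) → ℝ) (x : Fin 3 → ℝ) (t : ℝ) : ℝ :=
  aJ (wn φ x) (fun i => nu φ i x) (hB φ x) t

/-- The point `x + t n(x)`. -/
noncomputable def tub (φ : (Fin 3 → ℝ) → ℝ) (x : Fin 3 → ℝ) (t : ℝ) : Fin 3 → ℝ :=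
  fun k => x k + t * nu φ k x

lemma da_Cl (hφ : ContDiff ℝ 3 φ) (h : 0 < gs φ x) (t : ℝ) (i j : Fin 3) :
    DifferentiableAt ℝ (fun y => Cl φ i j y t) x := by
  have hw := da (cda_wn hφ h)
  have hn := fun k => da_nu hφ h k
  have h1 := da_aB hφ h
  have h2 := da_aT (x := x) hφ
  have h3 := fun j => da_aBe hφ h j
  have h4 := fun i j => da_hB (x := x) hφ i j
  unfold Cl aC aE
  refine (hw.mul ((differentiableAt_const _).sub ((hn i).mul (hn j)))).add
    ((differentiableAt_const _).mul ?_)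
  refine ((((?_ : DifferentiableAt ℝ _ x).sub (h4 i j)).sub ((h2.mul (hn i)).mul (hn j))).add
    ((hn i).mul (h3 j))).add ((h3 i).mul (hn j))
  split_ifs
  · exact h2.sub h1
  · exact differentiableAt_const _

lemma pd_Cl (hφ : ContDiff ℝ 3 φ) (h : 0 < gs φ x) (t : ℝ) (i j : Fin 3) :
    pd i (fun y => Cl φ i j y t) x =
      (let l := wn φ x; let n := fun i => nu φ i x; let B := hB φ x;
       let dBe := fun i j => pd i (fun y => aBe (fun i => nu φ i y) (hB φ y) j) x
       let dB := fun i => pd i (fun y => aB (fun i => nu φ i y) (hB φ y)) x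
       let dT := fun i => pd i (fun y => aT (hB φ y)) x
       aBe n B i * ((if i = j then 1 else 0) - n i * n j)
        + l * (- (aN l n B i i * n j + n i * aN l n B i j))
        + t * ((if i = j then dT i - dB i else 0) - hT φ x i i j
          - (dT i * n i * n j + aT B * (aN l n B i i * n j + n i * aN l n B i j))
          + (aN l n B i i * aBe n B j + n i * dBe i j)
          + (dBe i i * n j + aBe n B i * aN l n B i j))) := by
  have hw := da (cda_wn hφ h)
  have hn := fun k => da_nu hφ h k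
  have h1 := da_aB hφ h
  have h2 := da_aT (x := x) hφ
  have h3 := fun j => da_aBe hφ h j
  have h4 := fun i j => da_hB (x := x) hφ i j
  have h5 : DifferentiableAt ℝ (fun y => if i = j then aT (hB φ y)
      - aB (fun i => nu φ i y) (hB φ y) else 0) x := by
    split_ifs
    · exact h2.sub h1
    · exact differentiableAt_const _
  have e1 : (fun y => Cl φ i j y t) = fun y =>
      wn φ y * ((if i = j then 1 else 0) - nu φ i y * nu φ j y)
        + t * ((if i = j then aT (hB φ y) - aB (fun i => nu φ i y) (hB φ y) else 0) - hB φ y i j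
          - aT (hB φ y) * nu φ i y * nu φ j y + nu φ i y * aBe (fun i => nu φ i y) (hB φ y) j
          + aBe (fun i => nu φ i y) (hB φ y) i * nu φ j y) := rfl
  have hnn : DifferentiableAt ℝ (fun y => nu φ i y * nu φ j y) x := (hn i).mul (hn j)
  have hA : DifferentiableAt ℝ (fun y => (if i = j then (1:ℝ) else 0) - nu φ i y * nu φ j y) x :=
    (differentiableAt_const _).sub hnn
  have hTn : DifferentiableAt ℝ (fun y => aT (hB φ y) * nu φ i y) x := h2.mul (hn i)
  have hTnn : DifferentiableAt ℝ (fun y => aT (hB φ y) * nu φ i y * nu φ j y) x :=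
    hTn.mul (hn j)
  have hD : DifferentiableAt ℝ (fun y => nu φ i y * aBe (fun i => nu φ i y) (hB φ y) j) x :=
    (hn i).mul (h3 j)
  have hE : DifferentiableAt ℝ (fun y => aBe (fun i => nu φ i y) (hB φ y) i * nu φ j y) x :=
    (h3 i).mul (hn j)
  have s1 : DifferentiableAt ℝ (fun y => (if i = j then aT (hB φ y)
      - aB (fun i => nu φ i y) (hB φ y) else 0) - hB φ y i j) x := h5.sub (h4 i j)
  have s2 : DifferentiableAt ℝ (fun y => (if i = j then aT (hB φ y)
      - aB (fun i => nu φ i y) (hB φ y) else 0) - hB φ y i j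
        - aT (hB φ y) * nu φ i y * nu φ j y) x := s1.sub hTnn
  have s3 : DifferentiableAt ℝ (fun y => (if i = j then aT (hB φ y)
      - aB (fun i => nu φ i y) (hB φ y) else 0) - hB φ y i j
        - aT (hB φ y) * nu φ i y * nu φ j y
        + nu φ i y * aBe (fun i => nu φ i y) (hB φ y) j) x := s2.add hD
  have s4 : DifferentiableAt ℝ (fun y => (if i = j then aT (hB φ y)
      - aB (fun i => nu φ i y) (hB φ y) else 0) - hB φ y i j
        - aT (hB φ y) * nu φ i y * nu φ j y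
        + nu φ i y * aBe (fun i => nu φ i y) (hB φ y) j
        + aBe (fun i => nu φ i y) (hB φ y) i * nu φ j y) x := s3.add hE
  have hwA : DifferentiableAt ℝ (fun y => wn φ y * ((if i = j then (1:ℝ) else 0)
      - nu φ i y * nu φ j y)) x := hw.mul hA
  have ht4 : DifferentiableAt ℝ (fun y => t * ((if i = j then aT (hB φ y)
      - aB (fun i => nu φ i y) (hB φ y) else 0) - hB φ y i j
        - aT (hB φ y) * nu φ i y * nu φ j y
        + nu φ i y * aBe (fun i => nu φ i y) (hB φ y) j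
        + aBe (fun i => nu φ i y) (hB φ y) i * nu φ j y)) x := (differentiableAt_const t).mul s4
  rw [e1, pd_add hwA ht4, pd_mul hw hA,
    pd_sub (differentiableAt_const _) hnn, pd_const, pd_mul (hn i) (hn j),
    pd_mul (differentiableAt_const t) s4, pd_const, pd_add s3 hE, pd_add s2 hD, pd_sub s1 hTnn,
    pd_sub h5 (h4 i j), pd_ite, pd_sub h2 h1, pd_mul hTn (hn j), pd_mul h2 (hn i),
    pd_mul (hn i) (h3 j), pd_mul (h3 i) (hn j), pd_wn3 hφ h, pd_nu3 hφ h, pd_nu3 hφ h]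
  have : pd i (fun y => hB φ y i j) x = hT φ x i i j := rfl
  rw [this]
  dsimp only
  ring

lemma div_Cl (hφ : ContDiff ℝ 3 φ) (h : 0 < gs φ x) (t : ℝ) (j : Fin 3) :
    ∑ i, pd i (fun y => Cl φ i j y t) x
      = - ((aT (hB φ x) - aB (fun i => nu φ i x) (hB φ x))
          + t * (aK (fun i => nu φ i x) (hB φ x) / wn φ x)) * nu φ j x := by
  rw [← aC_div (wn_pos h).ne' (fun i j => hB_symm hφ i j) (T := hT φ x)
    (fun i j k => hT1 hφ i j k) (fun i j k => hT2 hφ i j k) t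
    (dBe := fun i j => pd i (fun y => aBe (fun i => nu φ i y) (hB φ y) j) x)
    (fun i j => pd_aBe hφ h i j)
    (dB := fun i => pd i (fun y => aB (fun i => nu φ i y) (hB φ y)) x)
    (dT := fun i => pd i (fun y => aT (hB φ y)) x)
    (fun i => pd_aB hφ h i) (fun i => pd_aT hφ i) j]
  exact Finset.sum_congr rfl fun i _ => pd_Cl hφ h t i j

end loc

end Vale.Agent.P134.H491
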