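import Vale.Agent.P134.H491.Tube2

set_option linter.all false

/-! The divergence identity (LI1) on the tubes and its integrated form. -/

namespace Vale.Agent.P134.H491

open Vale.Agent.P134 Vale.Agent.P134.SM MeasureTheory Filter Topology

lemma fderiv_eq_sum {m : ℕ} (g : (Fin m → ℝ) → ℝ) (y v : Fin m → ℝ) :
    fderiv ℝ g y v = ∑ k, pd k g y * v k := by
  have h : v = ∑ k, v k • (Pi.single k (1:ℝ) : Fin m → ℝ) := by
    funext j
    simp [Finset.sum_apply, Pi.single_apply]
  conv_lhs => rw [h]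
  rw [map_sum]
  refine Finset.sum_congr rfl fun k _ => ?_
  rw [map_smul]
  unfold pd
  rw [smul_eq_mul, mul_comm]

/-- Chain rule. -/
lemma pd_comp_vec {n m : ℕ} {g : (Fin m → ℝ) → ℝ} {T : Fin m → (Fin n → ℝ) → ℝ}
    {x : Fin n → ℝ} (hg : DifferentiableAt ℝ g (fun k => T k x))
    (hT : ∀ k, DifferentiableAt ℝ (T k) x) (i : Fin n) :
    pd i (fun y => g (fun k => T k y)) x = ∑ k, pd k g (fun k => T k x) * pd i (T k) x := by
  have h1 : HasFDerivAt (fun y k => T k y) (ContinuousLinearMap.pi fun k => fderiv ℝ (T k) x) x :=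
    hasFDerivAt_pi.mpr fun k => (hT k).hasFDerivAt
  have h2 := HasFDerivAt.comp x hg.hasFDerivAt h1
  unfold pd
  have e : (fun y => g (fun k => T k y)) = g ∘ (fun y k => T k y) := rfl
  rw [e, h2.fderiv, ContinuousLinearMap.comp_apply, fderiv_eq_sum]
  rfl

lemma hasDerivAt_line {m : ℕ} {g : (Fin m → ℝ) → ℝ} {x v : Fin m → ℝ} {t : ℝ}
    (hg : DifferentiableAt ℝ g (fun k => x k + t * v k)) :
    HasDerivAt (fun s : ℝ => g (fun k => x k + s * v k))
      (∑ k, pd k g (fun k => x k + t * v k) * v k) t := by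
  have h1 : HasDerivAt (fun (s : ℝ) (k : Fin m) => x k + s * v k) v t := by
    refine hasDerivAt_pi.mpr fun k => ?_
    simpa using ((hasDerivAt_id t).mul_const (v k)).const_add (x k)
  have h2 := HasFDerivAt.comp_hasDerivAt t hg.hasFDerivAt h1
  rw [fderiv_eq_sum] at h2
  exact h2

section T1

variable {φ : (Fin 3 → ℝ) → ℝ} {x : Fin 3 → ℝ}

lemma hasDerivAt_Jl (t : ℝ) :
    HasDerivAt (fun s => Jl φ x s) ((aT (hB φ x) - aB (fun i => nu φ i x) (hB φ x))
          + t * (aK (fun i => nu φ i x) (hB φ x) / wn φ x)) t := by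
  unfold Jl aJ
  have h1 : HasDerivAt (fun s : ℝ => wn φ x + s * (aT (hB φ x) - aB (fun i => nu φ i x) (hB φ x))
      + s ^ 2 * (aK (fun i => nu φ i x) (hB φ x) / (2 * wn φ x)))
      (1 * (aT (hB φ x) - aB (fun i => nu φ i x) (hB φ x)) + (2 * t ^ 1 * 1)
        * (aK (fun i => nu φ i x) (hB φ x) / (2 * wn φ x))) t :=
    (((hasDerivAt_id t).mul_const _).const_add _).add (((hasDerivAt_id t).pow 2).mul_const _)
  convert h1 using 1
  rcases eq_or_ne (wn φ x) 0 with h | h
  · rw [h]; simp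
  · field_simp

lemma da_tub (hφ : ContDiff ℝ 3 φ) (h : 0 < gs φ x) (t : ℝ) (k : Fin 3) :
    DifferentiableAt ℝ (fun y => tub φ y t k) x := by
  unfold tub
  exact (differentiableAt_apply k x).add ((differentiableAt_const t).mul (da_nu hφ h k))

lemma pd_tub (hφ : ContDiff ℝ 3 φ) (h : 0 < gs φ x) (t : ℝ) (i k : Fin 3) :
    pd i (fun y => tub φ y t k) x
      = (if k = i then 1 else 0) + t * aN (wn φ x) (fun i => nu φ i x) (hB φ x) i k := by
  have h1 : DifferentiableAt ℝ (fun y : Fin 3 → ℝ => y k) x := differentiableAt_apply k x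
  have h2 := da_nu hφ h k
  have h3 : DifferentiableAt ℝ (fun y => t * nu φ k y) x := (differentiableAt_const t).mul h2
  have e : (fun y => tub φ y t k) = fun y => y k + t * nu φ k y := rfl
  rw [e, pd_add h1 h3, pd_coord, pd_mul (differentiableAt_const t) h2, pd_const, pd_nu3 hφ h]
  ring

/-- **LI1**: the divergence identity. -/
theorem tube_div (hφ : ContDiff ℝ 3 φ) (h : 0 < gs φ x) (t : ℝ)
    {X : Fin 3 → (Fin 3 → ℝ) → ℝ} (hX : ∀ j, DifferentiableAt ℝ (X j) (tub φ x t)) :
    ∑ i, pd i (fun y => ∑ j, Cl φ i j y t * X j (tub φ y t)) x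
      + deriv (fun s => Jl φ x s * ∑ j, nu φ j x * X j (tub φ x s)) t
    = Jl φ x t * ∑ j, pd j (X j) (tub φ x t) := by
  set n : Fin 3 → ℝ := fun i => nu φ i x with hn
  set B := hB φ x with hBd
  set l := wn φ x with hl
  have hl0 : l ≠ 0 := (wn_pos h).ne'
  have hXd : ∀ j, DifferentiableAt ℝ (fun y => X j (tub φ y t)) x := by
    intro j
    have h1 : DifferentiableAt ℝ (fun y k => tub φ y t k) x :=
      differentiableAt_pi.mpr fun k => da_tub hφ h t k
    exact (hX j).comp x h1
  have hC := fun i j => da_Cl hφ h t i j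
  -- space part
  have s1 : ∀ i, pd i (fun y => ∑ j, Cl φ i j y t * X j (tub φ y t)) x
      = ∑ j, (pd i (fun y => Cl φ i j y t) x * X j (tub φ x t)
        + Cl φ i j x t * ∑ k, pd k (X j) (tub φ x t) * ((if k = i then 1 else 0)
          + t * aN l n B i k)) := by
    intro i
    rw [pd_sum Finset.univ (F := fun j y => Cl φ i j y t * X j (tub φ y t))
      (fun j _ => (hC i j).mul (hXd j))]
    refine Finset.sum_congr rfl fun j _ => ?_
    rw [pd_mul (hC i j) (hXd j)]
    have h2 : pd i (fun y => X j (tub φ y t)) x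
        = ∑ k, pd k (X j) (tub φ x t) * pd i (fun y => tub φ y t k) x :=
      pd_comp_vec (T := fun k y => tub φ y t k) (hX j) (fun k => da_tub hφ h t k) i
    rw [h2, Finset.sum_congr rfl fun k _ => by rw [pd_tub hφ h t i k]]
    ring
  have s2 : ∑ i, pd i (fun y => ∑ j, Cl φ i j y t * X j (tub φ y t)) x
      = ∑ j, (∑ i, pd i (fun y => Cl φ i j y t) x) * X j (tub φ x t)
        + ∑ j, ∑ k, pd k (X j) (tub φ x t) * (Jl φ x t * ((if k = j then 1 else 0) - n k * n j)) := by
    simp_rw [s1]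
    rw [Finset.sum_comm]
    rw [← Finset.sum_add_distrib]
    refine Finset.sum_congr rfl fun j _ => ?_
    rw [Finset.sum_add_distrib, Finset.sum_mul]
    congr 1
    simp_rw [Finset.mul_sum]
    rw [Finset.sum_comm]
    refine Finset.sum_congr rfl fun k _ => ?_
    have hk' : ∑ i, ((if k = i then 1 else 0) + t * aN l n B i k) * Cl φ i j x t
        = Jl φ x t * ((if k = j then 1 else 0) - n k * n j) :=
      aC_key (l := l) (n := n) (B := B) hl0 (fun i j => hB_symm hφ i j) (sum_nu_sq h) t k j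
    rw [← hk', Finset.mul_sum]
    refine Finset.sum_congr rfl fun i _ => ?_
    ring
  -- time part
  have t1 : HasDerivAt (fun s => Jl φ x s * ∑ j, nu φ j x * X j (tub φ x s))
      (((aT B - aB n B) + t * (aK n B / l)) * (∑ j, n j * X j (tub φ x t))
        + Jl φ x t * ∑ j, n j * ∑ k, pd k (X j) (tub φ x t) * n k) t := by
    refine HasDerivAt.mul (hasDerivAt_Jl t) ?_
    refine HasDerivAt.fun_sum fun j _ => ?_
    exact (hasDerivAt_line (hX j)).const_mul _
  rw [s2, t1.deriv]
  have d1 : ∀ j, ∑ i, pd i (fun y => Cl φ i j y t) x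
      = - ((aT B - aB n B) + t * (aK n B / l)) * n j := fun j => div_Cl hφ h t j
  simp_rw [d1]
  have e1 : ∑ j, -((aT B - aB n B) + t * (aK n B / l)) * n j * X j (tub φ x t)
      = - (((aT B - aB n B) + t * (aK n B / l)) * ∑ j, n j * X j (tub φ x t)) := by
    rw [Finset.mul_sum, ← Finset.sum_neg_distrib]
    exact Finset.sum_congr rfl fun j _ => by ring
  have e2 : ∑ j, ∑ k, pd k (X j) (tub φ x t) * (Jl φ x t * ((if k = j then 1 else 0) - n k * n j))
      = Jl φ x t * ∑ j, pd j (X j) (tub φ x t)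
        - Jl φ x t * ∑ j, n j * ∑ k, pd k (X j) (tub φ x t) * n k := by
    rw [Finset.mul_sum, Finset.mul_sum, ← Finset.sum_sub_distrib]
    refine Finset.sum_congr rfl fun j _ => ?_
    have e3 : ∀ k, pd k (X j) (tub φ x t) * (Jl φ x t * ((if k = j then 1 else 0) - n k * n j))
        = (if k = j then Jl φ x t * pd k (X j) (tub φ x t) else 0)
          - Jl φ x t * (n j * (pd k (X j) (tub φ x t) * n k)) := by
      intro k; split_ifs <;> ring
    rw [Finset.sum_congr rfl fun k _ => e3 k, Finset.sum_sub_distrib, Finset.sum_ite_eq',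
      if_pos (Finset.mem_univ j), ← Finset.mul_sum, ← Finset.mul_sum]
  rw [e1, e2]
  ring

end T1

end Vale.Agent.P134.H491
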