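import Vale.Agent.P134.H491.Tube3

set_option linter.all false

/-! The integrated divergence identity on the tubes. -/

namespace Vale.Agent.P134.H491

open Vale.Agent.P134 Vale.Agent.P134.SM MeasureTheory Filter Topology

/-- Space derivative on `R³ × R`. -/
noncomputable def dx (i : Fin 3) (M : (Fin 3 → ℝ) × ℝ → ℝ) (p : (Fin 3 → ℝ) × ℝ) : ℝ :=
  fderiv ℝ M p (Pi.single i 1, 0)

/-- Time derivative on `R³ × R`. -/
noncomputable def dt (M : (Fin 3 → ℝ) × ℝ → ℝ) (p : (Fin 3 → ℝ) × ℝ) : ℝ :=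
  fderiv ℝ M p (0, 1)

section calcs

variable {M : (Fin 3 → ℝ) × ℝ → ℝ} {p : (Fin 3 → ℝ) × ℝ}

lemma dx_eq (hM : DifferentiableAt ℝ M p) (i : Fin 3) :
    dx i M p = pd i (fun y => M (y, p.2)) p.1 := by
  have h1 : HasFDerivAt (fun y : Fin 3 → ℝ => (y, p.2))
      (ContinuousLinearMap.inl ℝ (Fin 3 → ℝ) ℝ) p.1 := by
    have := (hasFDerivAt_id (𝕜 := ℝ) p.1).prodMk (hasFDerivAt_const p.2 p.1)
    exact this
  have hM' : HasFDerivAt M (fderiv ℝ M p) ((fun y : Fin 3 → ℝ => (y, p.2)) p.1) := hM.hasFDerivAt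
  have h2 := HasFDerivAt.comp p.1 hM' h1
  unfold pd dx
  have e : (fun y => M (y, p.2)) = M ∘ (fun y : Fin 3 → ℝ => (y, p.2)) := rfl
  rw [e, h2.fderiv]
  rfl

lemma dt_eq' (hM : DifferentiableAt ℝ M p) :
    HasDerivAt (fun s => M (p.1, s)) (dt M p) p.2 := by
  have h1 : HasDerivAt (fun s : ℝ => (p.1, s)) ((0, 1) : (Fin 3 → ℝ) × ℝ) p.2 :=
    (hasDerivAt_const p.2 p.1).prodMk (hasDerivAt_id p.2)
  have hM' : HasFDerivAt M (fderiv ℝ M p) ((fun s : ℝ => (p.1, s)) p.2) := hM.hasFDerivAt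
  exact HasFDerivAt.comp_hasDerivAt p.2 hM' h1

lemma dt_eq (hM : DifferentiableAt ℝ M p) :
    dt M p = deriv (fun s => M (p.1, s)) p.2 := (dt_eq' hM).deriv.symm

lemma continuous_dx (hM : ContDiff ℝ 1 M) (i : Fin 3) : Continuous (dx i M) :=
  (hM.continuous_fderiv (by norm_num)).clm_apply continuous_const

lemma continuous_dt (hM : ContDiff ℝ 1 M) : Continuous (dt M) :=
  (hM.continuous_fderiv (by norm_num)).clm_apply continuous_const

lemma fderiv_zero_of_notMem (hp : p ∉ tsupport M) : fderiv ℝ M p = 0 := by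
  by_contra h
  exact hp (support_fderiv_subset ℝ (Function.mem_support.mpr h))

lemma dx_zero (hp : p ∉ tsupport M) (i : Fin 3) : dx i M p = 0 := by
  unfold dx; rw [fderiv_zero_of_notMem hp]; rfl

lemma dt_zero (hp : p ∉ tsupport M) : dt M p = 0 := by
  unfold dt; rw [fderiv_zero_of_notMem hp]; rfl

instance haarE : (volume : Measure ((Fin 3 → ℝ) × ℝ)).IsAddHaarMeasure :=
  Measure.prod.instIsAddHaarMeasure _ _

lemma integral_dir {F : (Fin 3 → ℝ) × ℝ → ℝ} (hF : ContDiff ℝ 1 F) (hc : HasCompactSupport F)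
    (v : (Fin 3 → ℝ) × ℝ) : ∫ p, fderiv ℝ F p v = 0 := by
  have hcont : Continuous fun p => fderiv ℝ F p v :=
    (hF.continuous_fderiv (by norm_num)).clm_apply continuous_const
  have hcs : HasCompactSupport fun p => fderiv ℝ F p v :=
    (hc.fderiv ℝ).comp_left (g := fun L : ((Fin 3 → ℝ) × ℝ) →L[ℝ] ℝ => L v) (by simp)
  have h1 : Integrable (fun p : (Fin 3 → ℝ) × ℝ => fderiv ℝ (fun _ => (1:ℝ)) p v * F p) := by
    simp
  have h2 : Integrable (fun p : (Fin 3 → ℝ) × ℝ => (1:ℝ) * fderiv ℝ F p v) := by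
    simpa using hcont.integrable_of_hasCompactSupport hcs
  have h3 : Integrable (fun p : (Fin 3 → ℝ) × ℝ => (1:ℝ) * F p) := by
    simpa using hF.continuous.integrable_of_hasCompactSupport hc
  have h4 := integral_mul_fderiv_eq_neg_fderiv_mul_of_integrable (μ := volume) h1 h2 h3
    (fun x _ => differentiableAt_const _) (fun x _ => hF.differentiable (by norm_num) x)
  simpa using h4

lemma integrable_dir {F : (Fin 3 → ℝ) × ℝ → ℝ} (hF : ContDiff ℝ 1 F) (hc : HasCompactSupport F)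
    (v : (Fin 3 → ℝ) × ℝ) : Integrable fun p => fderiv ℝ F p v := by
  have hcont : Continuous fun p => fderiv ℝ F p v :=
    (hF.continuous_fderiv (by norm_num)).clm_apply continuous_const
  have hcs : HasCompactSupport fun p => fderiv ℝ F p v :=
    (hc.fderiv ℝ).comp_left (g := fun L : ((Fin 3 → ℝ) × ℝ) →L[ℝ] ℝ => L v) (by simp)
  exact hcont.integrable_of_hasCompactSupport hcs

/-- A product whose second factor is only good on the support of the first. -/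
lemma contDiff_mul_supp {G : (Fin 3 → ℝ) × ℝ → ℝ} (hM : ContDiff ℝ 1 M)
    (hG : ∀ p ∈ tsupport M, ContDiffAt ℝ 1 G p) : ContDiff ℝ 1 (fun p => M p * G p) := by
  rw [contDiff_iff_contDiffAt]
  intro p
  by_cases hp : p ∈ tsupport M
  · exact hM.contDiffAt.mul (hG p hp)
  · have h0 : M =ᶠ[𝓝 p] 0 := notMem_tsupport_iff_eventuallyEq.mp hp
    have h1 : (fun p => M p * G p) =ᶠ[𝓝 p] fun _ => 0 := by
      filter_upwards [h0] with q hq
      rw [hq]; simp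
    exact contDiffAt_const.congr_of_eventuallyEq h1

lemma continuous_mul_supp {f G : (Fin 3 → ℝ) × ℝ → ℝ} {K : Set ((Fin 3 → ℝ) × ℝ)}
    (hK : IsClosed K) (hf : Continuous f) (hf0 : ∀ p ∉ K, f p = 0)
    (hG : ∀ p ∈ K, ContinuousAt G p) : Continuous (fun p => f p * G p) := by
  rw [continuous_iff_continuousAt]
  intro p
  by_cases hp : p ∈ K
  · exact hf.continuousAt.mul (hG p hp)
  · have h1 : (fun p => f p * G p) =ᶠ[𝓝 p] fun _ => 0 := by
      filter_upwards [hK.isOpen_compl.mem_nhds hp] with q hq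
      rw [hf0 q hq]; simp
    exact continuousAt_const.congr h1.symm

end calcs

section LI0

variable {φ : (Fin 3 → ℝ) → ℝ} {X : Fin 3 → (Fin 3 → ℝ) → ℝ} {w : ℝ → ℝ}
  {M : (Fin 3 → ℝ) × ℝ → ℝ} {p : (Fin 3 → ℝ) × ℝ}

lemma cda_nu' (hφ : ContDiff ℝ 3 φ) (h : 0 < gs φ p.1) (k : Fin 3) :
    ContDiffAt ℝ 1 (fun q : (Fin 3 → ℝ) × ℝ => nu φ k q.1) p :=
  ((cda_nu hφ h k).of_le (by norm_num)).comp p contDiffAt_fst

lemma cda_wn' (hφ : ContDiff ℝ 3 φ) (h : 0 < gs φ p.1) :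
    ContDiffAt ℝ 1 (fun q : (Fin 3 → ℝ) × ℝ => wn φ q.1) p :=
  ((cda_wn hφ h).of_le (by norm_num)).comp p contDiffAt_fst

lemma cda_hB' (hφ : ContDiff ℝ 3 φ) (i j : Fin 3) :
    ContDiffAt ℝ 1 (fun q : (Fin 3 → ℝ) × ℝ => hB φ q.1 i j) p :=
  (c1_hB hφ i j).contDiffAt.comp p contDiffAt_fst

lemma cda_aBe' (hφ : ContDiff ℝ 3 φ) (h : 0 < gs φ p.1) (j : Fin 3) :
    ContDiffAt ℝ 1 (fun q : (Fin 3 → ℝ) × ℝ => aBe (fun i => nu φ i q.1) (hB φ q.1) j) p := by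
  unfold aBe
  exact ContDiffAt.sum fun k _ => (cda_hB' hφ j k).mul (cda_nu' hφ h k)

lemma cda_aB' (hφ : ContDiff ℝ 3 φ) (h : 0 < gs φ p.1) :
    ContDiffAt ℝ 1 (fun q : (Fin 3 → ℝ) × ℝ => aB (fun i => nu φ i q.1) (hB φ q.1)) p := by
  unfold aB
  exact ContDiffAt.sum fun k _ => (cda_aBe' hφ h k).mul (cda_nu' hφ h k)

lemma cda_aT' (hφ : ContDiff ℝ 3 φ) :
    ContDiffAt ℝ 1 (fun q : (Fin 3 → ℝ) × ℝ => aT (hB φ q.1)) p := by
  unfold aT
  exact ContDiffAt.sum fun k _ => cda_hB' hφ k k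

lemma cda_aK' (hφ : ContDiff ℝ 3 φ) (h : 0 < gs φ p.1) :
    ContDiffAt ℝ 1 (fun q : (Fin 3 → ℝ) × ℝ => aK (fun i => nu φ i q.1) (hB φ q.1)) p := by
  unfold aK
  have h1 := cda_aT' (p := p) hφ
  have h2 := cda_aB' hφ h
  refine (((h1.pow 2).sub ((contDiffAt_const.mul h1).mul h2)).sub ?_).add
    (contDiffAt_const.mul ?_)
  · exact ContDiffAt.sum fun i _ => ContDiffAt.sum fun j _ => (cda_hB' hφ i j).pow 2
  · exact ContDiffAt.sum fun i _ => (cda_aBe' hφ h i).pow 2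

lemma cda_Jl (hφ : ContDiff ℝ 3 φ) (h : 0 < gs φ p.1) :
    ContDiffAt ℝ 1 (fun q : (Fin 3 → ℝ) × ℝ => Jl φ q.1 q.2) p := by
  unfold Jl aJ
  have hl := cda_wn' hφ h
  refine (hl.add (contDiffAt_snd.mul ((cda_aT' hφ).sub (cda_aB' hφ h)))).add
    ((contDiffAt_snd.pow 2).mul ((cda_aK' hφ h).div (contDiffAt_const.mul hl) ?_))
  have := wn_pos h
  positivity

lemma cda_Cl (hφ : ContDiff ℝ 3 φ) (h : 0 < gs φ p.1) (i j : Fin 3) :
    ContDiffAt ℝ 1 (fun q : (Fin 3 → ℝ) × ℝ => Cl φ i j q.1 q.2) p := by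
  have hw := cda_wn' hφ h
  have hn := fun k => cda_nu' hφ h k
  have h1 := cda_aB' hφ h
  have h2 := cda_aT' (p := p) hφ
  have h3 := fun j => cda_aBe' hφ h j
  have h4 := fun i j => cda_hB' (p := p) hφ i j
  unfold Cl aC aE
  refine (hw.mul (contDiffAt_const.sub ((hn i).mul (hn j)))).add (contDiffAt_snd.mul ?_)
  refine ((((?_ : ContDiffAt ℝ 1 _ p).sub (h4 i j)).sub ((h2.mul (hn i)).mul (hn j))).add
    ((hn i).mul (h3 j))).add ((h3 i).mul (hn j))
  split_ifs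
  · exact h2.sub h1
  · exact contDiffAt_const

lemma cda_tub (hφ : ContDiff ℝ 3 φ) (h : 0 < gs φ p.1) :
    ContDiffAt ℝ 1 (fun q : (Fin 3 → ℝ) × ℝ => tub φ q.1 q.2) p := by
  rw [contDiffAt_pi]
  intro k
  unfold tub
  have h1 : ContDiffAt ℝ 1 (fun q : (Fin 3 → ℝ) × ℝ => q.1 k) p :=
    (contDiff_apply ℝ ℝ k).contDiffAt.comp p contDiffAt_fst
  exact h1.add (contDiffAt_snd.mul (cda_nu' hφ h k))

lemma cda_X (hφ : ContDiff ℝ 3 φ) (h : 0 < gs φ p.1) {g : (Fin 3 → ℝ) → ℝ}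
    (hg : ContDiff ℝ 1 g) :
    ContDiffAt ℝ 1 (fun q : (Fin 3 → ℝ) × ℝ => g (tub φ q.1 q.2)) p :=
  hg.contDiffAt.comp p (cda_tub hφ h)

/-- The space flux. -/
noncomputable def Sx (φ : (Fin 3 → ℝ) → ℝ) (X : Fin 3 → (Fin 3 → ℝ) → ℝ) (i : Fin 3)
    (p : (Fin 3 → ℝ) × ℝ) : ℝ := ∑ j, Cl φ i j p.1 p.2 * X j (tub φ p.1 p.2)

/-- The normal component `X·n` at `x + t n(x)`. -/
noncomputable def Xn (φ : (Fin 3 → ℝ) → ℝ) (X : Fin 3 → (Fin 3 → ℝ) → ℝ)
    (p : (Fin 3 → ℝ) × ℝ) : ℝ := ∑ j, nu φ j p.1 * X j (tub φ p.1 p.2)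

/-- The divergence of `X` at `x + t n(x)`. -/
noncomputable def Xd (φ : (Fin 3 → ℝ) → ℝ) (X : Fin 3 → (Fin 3 → ℝ) → ℝ)
    (p : (Fin 3 → ℝ) × ℝ) : ℝ := ∑ j, pd j (X j) (tub φ p.1 p.2)

lemma cda_Sx (hφ : ContDiff ℝ 3 φ) (h : 0 < gs φ p.1) (hX : ∀ j, ContDiff ℝ 1 (X j)) (i : Fin 3) :
    ContDiffAt ℝ 1 (Sx φ X i) p := by
  unfold Sx
  exact ContDiffAt.sum fun j _ => (cda_Cl hφ h i j).mul (cda_X hφ h (hX j))

lemma cda_Xn (hφ : ContDiff ℝ 3 φ) (h : 0 < gs φ p.1) (hX : ∀ j, ContDiff ℝ 1 (X j)) :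
    ContDiffAt ℝ 1 (Xn φ X) p := by
  unfold Xn
  exact ContDiffAt.sum fun j _ => (cda_nu' hφ h j).mul (cda_X hφ h (hX j))

lemma Sx_normal (hφ : ContDiff ℝ 3 φ) (h : 0 < gs φ p.1) :
    ∑ i, nu φ i p.1 * Sx φ X i p = 0 := by
  unfold Sx
  simp_rw [Finset.mul_sum]
  rw [Finset.sum_comm]
  refine Finset.sum_eq_zero fun j _ => ?_
  have h1 : ∑ i, nu φ i p.1 * Cl φ i j p.1 p.2 = 0 :=
    aC_normal (l := wn φ p.1) (n := fun i => nu φ i p.1) (B := hB φ p.1)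
      (fun i j => hB_symm hφ i j) (sum_nu_sq h) p.2 j
  have h2 : ∀ i, nu φ i p.1 * (Cl φ i j p.1 p.2 * X j (tub φ p.1 p.2))
      = (nu φ i p.1 * Cl φ i j p.1 p.2) * X j (tub φ p.1 p.2) := fun i => by ring
  rw [Finset.sum_congr rfl fun i _ => h2 i, ← Finset.sum_mul, h1, zero_mul]

/-- The integrand of the integrated identity. -/
noncomputable def L0 (φ : (Fin 3 → ℝ) → ℝ) (X : Fin 3 → (Fin 3 → ℝ) → ℝ)
    (M : (Fin 3 → ℝ) × ℝ → ℝ) (p : (Fin 3 → ℝ) × ℝ) : ℝ :=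
  M p * Jl φ p.1 p.2 * Xd φ X p + dt M p * Jl φ p.1 p.2 * Xn φ X p + ∑ i, dx i M p * Sx φ X i p

lemma L0_eq (hφ : ContDiff ℝ 3 φ) (hw : ContDiff ℝ 1 w) (hX : ∀ j, ContDiff ℝ 1 (X j))
    (hM : ContDiff ℝ 1 M) (hMs : ∀ p ∈ tsupport M, 0 < gs φ p.1) (p : (Fin 3 → ℝ) × ℝ) :
    w (φ p.1) * L0 φ X M p
      = ∑ i, fderiv ℝ (fun q => M q * (w (φ q.1) * Sx φ X i q)) p (Pi.single i 1, 0)
        + fderiv ℝ (fun q => M q * (w (φ q.1) * (Jl φ q.1 q.2 * Xn φ X q))) p (0, 1) := by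
  by_cases hp : p ∈ tsupport M
  · have h := hMs p hp
    have hMd : DifferentiableAt ℝ M p := hM.differentiable (by norm_num) p
    have hφd : DifferentiableAt ℝ φ p.1 := hφ.differentiable (by norm_num) p.1
    have hwd : DifferentiableAt ℝ w (φ p.1) := hw.differentiable (by norm_num) _
    have hwφ : ContDiffAt ℝ 1 (fun q : (Fin 3 → ℝ) × ℝ => w (φ q.1)) p :=
      ((hw.comp (hφ.of_le (by norm_num))).comp contDiff_fst).contDiffAt
    have c1 : ∀ i, ContDiffAt ℝ 1 (fun q => M q * (w (φ q.1) * Sx φ X i q)) p := fun i =>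
      hM.contDiffAt.mul (hwφ.mul (cda_Sx hφ h hX i))
    have c2 : ContDiffAt ℝ 1 (fun q => M q * (w (φ q.1) * (Jl φ q.1 q.2 * Xn φ X q))) p :=
      hM.contDiffAt.mul (hwφ.mul ((cda_Jl hφ h).mul (cda_Xn hφ h hX)))
    have e1 : ∀ i, fderiv ℝ (fun q => M q * (w (φ q.1) * Sx φ X i q)) p (Pi.single i 1, 0)
        = dx i M p * (w (φ p.1) * Sx φ X i p)
          + M p * (deriv w (φ p.1) * (wn φ p.1 * nu φ i p.1) * Sx φ X i p
            + w (φ p.1) * pd i (fun y => ∑ j, Cl φ i j y p.2 * X j (tub φ y p.2)) p.1) := by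
      intro i
      have h1 := dx_eq ((c1 i).differentiableAt (by norm_num)) i
      unfold dx at h1
      rw [h1]
      have m1 : DifferentiableAt ℝ (fun y => M (y, p.2)) p.1 := by
        have : DifferentiableAt ℝ (fun y : Fin 3 → ℝ => (y, p.2)) p.1 :=
          differentiableAt_id.prodMk (differentiableAt_const _)
        exact DifferentiableAt.comp p.1 (f := fun y : Fin 3 → ℝ => (y, p.2)) (g := M) hMd this
      have m2 : DifferentiableAt ℝ (fun y => w (φ y)) p.1 :=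
        DifferentiableAt.comp p.1 (g := w) hwd hφd
      have m3 : DifferentiableAt ℝ (fun y => Sx φ X i (y, p.2)) p.1 := by
        have : DifferentiableAt ℝ (fun y : Fin 3 → ℝ => (y, p.2)) p.1 :=
          differentiableAt_id.prodMk (differentiableAt_const _)
        exact DifferentiableAt.comp p.1 (f := fun y : Fin 3 → ℝ => (y, p.2)) (g := Sx φ X i)
          ((cda_Sx hφ h hX i).differentiableAt (by norm_num)) this
      have m4 : DifferentiableAt ℝ (fun y => w (φ y) * Sx φ X i (y, p.2)) p.1 := m2.mul m3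
      have e0 : pd i (fun y => M (y, p.2) * (w (φ y) * Sx φ X i (y, p.2))) p.1
        = pd i (fun y => M (y, p.2)) p.1 * (w (φ p.1) * Sx φ X i (p.1, p.2))
          + M (p.1, p.2) * (pd i (fun y => w (φ y)) p.1 * Sx φ X i (p.1, p.2)
            + w (φ p.1) * pd i (fun y => Sx φ X i (y, p.2)) p.1) := by
        rw [pd_mul m1 m4, pd_mul m2 m3]; ring
      have e2 : pd i (fun y => w (φ y)) p.1 = deriv w (φ p.1) * (wn φ p.1 * nu φ i p.1) := by
        rw [pd_comp hwd hφd, pd_eq_wn_mul_nu h i]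
      rw [e0, e2, ← dx_eq hMd i]
      rfl
    have e3 : fderiv ℝ (fun q => M q * (w (φ q.1) * (Jl φ q.1 q.2 * Xn φ X q))) p (0, 1)
        = dt M p * (w (φ p.1) * (Jl φ p.1 p.2 * Xn φ X p))
          + M p * (w (φ p.1) * deriv (fun s => Jl φ p.1 s
            * ∑ j, nu φ j p.1 * X j (tub φ p.1 s)) p.2) := by
      have h1 := dt_eq (c2.differentiableAt (by norm_num))
      unfold dt at h1
      rw [h1]
      have m3 : DifferentiableAt ℝ (fun s => Jl φ p.1 s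
            * ∑ j, nu φ j p.1 * X j (tub φ p.1 s)) p.2 := by
        have : DifferentiableAt ℝ (fun s : ℝ => (p.1, s)) p.2 :=
          (differentiableAt_const _).prodMk differentiableAt_id
        exact DifferentiableAt.comp p.2 (f := fun s : ℝ => (p.1, s))
          (g := fun q : (Fin 3 → ℝ) × ℝ => Jl φ q.1 q.2 * Xn φ X q)
          (((cda_Jl hφ h).mul (cda_Xn hφ h hX)).differentiableAt (by norm_num)) this
      have h2 := ((dt_eq' hMd).mul (m3.hasDerivAt.const_mul (w (φ p.1)))).deriv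
      exact h2
    rw [Finset.sum_congr rfl fun i _ => e1 i, e3]
    have hdiv := tube_div hφ h p.2 (fun j => (hX j).differentiable (by norm_num) (tub φ p.1 p.2))
    have hN := Sx_normal (X := X) hφ h
    unfold L0 Xd
    rw [Finset.sum_add_distrib, ← Finset.mul_sum, Finset.sum_add_distrib, ← Finset.mul_sum]
    have e4 : ∑ i, deriv w (φ p.1) * (wn φ p.1 * nu φ i p.1) * Sx φ X i p = 0 := by
      have : ∀ i, deriv w (φ p.1) * (wn φ p.1 * nu φ i p.1) * Sx φ X i p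
          = deriv w (φ p.1) * wn φ p.1 * (nu φ i p.1 * Sx φ X i p) := fun i => by ring
      rw [Finset.sum_congr rfl fun i _ => this i, ← Finset.mul_sum, hN, mul_zero]
    have e5 : ∑ i, dx i M p * (w (φ p.1) * Sx φ X i p)
        = w (φ p.1) * ∑ i, dx i M p * Sx φ X i p := by
      rw [Finset.mul_sum]
      exact Finset.sum_congr rfl fun i _ => by ring
    rw [e4, e5]
    have e6 : M p * Jl φ p.1 p.2 * ∑ j, pd j (X j) (tub φ p.1 p.2)
        = M p * (Jl φ p.1 p.2 * ∑ j, pd j (X j) (tub φ p.1 p.2)) := by ring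
    rw [e6, ← hdiv]
    ring
  · have z1 : M p = 0 := image_eq_zero_of_notMem_tsupport hp
    have z2 : ∀ i, dx i M p = 0 := dx_zero hp
    have z3 : dt M p = 0 := dt_zero hp
    have z4 : ∀ G : (Fin 3 → ℝ) × ℝ → ℝ, fderiv ℝ (fun q => M q * G q) p = 0 := by
      intro G
      refine fderiv_zero_of_notMem fun hh => hp ?_
      exact tsupport_mul_subset_left hh
    unfold L0
    simp only [z1, z2, z3, z4, zero_mul, add_zero, Finset.sum_const_zero, mul_zero,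
      ContinuousLinearMap.zero_apply]

/-- **LI0**: the integrated divergence identity. -/
theorem integral_L0 (hφ : ContDiff ℝ 3 φ) (hw : ContDiff ℝ 1 w) (hX : ∀ j, ContDiff ℝ 1 (X j))
    (hM : ContDiff ℝ 1 M) (hMc : HasCompactSupport M) (hMs : ∀ p ∈ tsupport M, 0 < gs φ p.1) :
    Integrable (fun p => w (φ p.1) * L0 φ X M p) ∧ ∫ p, w (φ p.1) * L0 φ X M p = 0 := by
  have hwφ : ContDiff ℝ 1 (fun q : (Fin 3 → ℝ) × ℝ => w (φ q.1)) :=
    (hw.comp (hφ.of_le (by norm_num))).comp contDiff_fst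
  have c1 : ∀ i, ContDiff ℝ 1 (fun q => M q * (w (φ q.1) * Sx φ X i q)) := fun i =>
    contDiff_mul_supp hM fun p hp => hwφ.contDiffAt.mul (cda_Sx hφ (hMs p hp) hX i)
  have c2 : ContDiff ℝ 1 (fun q => M q * (w (φ q.1) * (Jl φ q.1 q.2 * Xn φ X q))) :=
    contDiff_mul_supp hM fun p hp => hwφ.contDiffAt.mul
      ((cda_Jl hφ (hMs p hp)).mul (cda_Xn hφ (hMs p hp) hX))
  have k1 : ∀ G : (Fin 3 → ℝ) × ℝ → ℝ, HasCompactSupport (fun q => M q * G q) :=
    fun G => hMc.mul_right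
  have e : (fun p => w (φ p.1) * L0 φ X M p) = fun p =>
      ∑ i, fderiv ℝ (fun q => M q * (w (φ q.1) * Sx φ X i q)) p (Pi.single i 1, 0)
        + fderiv ℝ (fun q => M q * (w (φ q.1) * (Jl φ q.1 q.2 * Xn φ X q))) p (0, 1) := by
    funext p
    exact L0_eq hφ hw hX hM hMs p
  have i1 : ∀ i : Fin 3, Integrable (fun p =>
      fderiv ℝ (fun q => M q * (w (φ q.1) * Sx φ X i q)) p (Pi.single i 1, 0)) := fun i =>
    integrable_dir (c1 i) (k1 _) _
  have i2 : Integrable (fun p =>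
      fderiv ℝ (fun q => M q * (w (φ q.1) * (Jl φ q.1 q.2 * Xn φ X q))) p (0, 1)) :=
    integrable_dir c2 (k1 _) _
  rw [e]
  refine ⟨(integrable_finset_sum _ fun i _ => i1 i).add i2, ?_⟩
  rw [integral_add (integrable_finset_sum _ fun i _ => i1 i) i2,
    integral_finset_sum _ fun i _ => i1 i, integral_dir c2 (k1 _)]
  simp only [integral_dir (c1 _) (k1 _), Finset.sum_const_zero, add_zero]

end LI0

end Vale.Agent.P134.H491
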