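import Vale.Agent.P134.H491.Tube4

set_option linter.all false

/-! The stability inequality on the tubes (LI2) and the identity (LI4). -/

namespace Vale.Agent.P134.H491

open Vale.Agent.P134 Vale.Agent.P134.SM MeasureTheory Filter Topology

section LI2

variable {φ : (Fin 3 → ℝ) → ℝ} {X : Fin 3 → (Fin 3 → ℝ) → ℝ} {w : ℝ → ℝ}
  {Φ : (Fin 3 → ℝ) × ℝ → ℝ} {p : (Fin 3 → ℝ) × ℝ} {χ V : (Fin 3 → ℝ) → ℝ}

/-- `(|p| C D_x Φ)_j`. -/
noncomputable def CD (φ : (Fin 3 → ℝ) → ℝ) (Φ : (Fin 3 → ℝ) × ℝ → ℝ) (j : Fin 3)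
    (p : (Fin 3 → ℝ) × ℝ) : ℝ := ∑ i, Cl φ i j p.1 p.2 * dx i Φ p

lemma dt_sq (hΦ : ContDiff ℝ 1 Φ) (p : (Fin 3 → ℝ) × ℝ) :
    dt (fun q => Φ q ^ 2) p = 2 * Φ p * dt Φ p := by
  unfold dt
  have h : HasFDerivAt Φ (fderiv ℝ Φ p) p := (hΦ.differentiable (by norm_num) p).hasFDerivAt
  rw [(h.pow 2).fderiv]
  simp

lemma dx_sq (hΦ : ContDiff ℝ 1 Φ) (i : Fin 3) (p : (Fin 3 → ℝ) × ℝ) :
    dx i (fun q => Φ q ^ 2) p = 2 * Φ p * dx i Φ p := by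
  unfold dx
  have h : HasFDerivAt Φ (fderiv ℝ Φ p) p := (hΦ.differentiable (by norm_num) p).hasFDerivAt
  rw [(h.pow 2).fderiv]
  simp

lemma tsupport_sq_subset (Φ : (Fin 3 → ℝ) × ℝ → ℝ) :
    tsupport (fun q => Φ q ^ 2) ⊆ tsupport Φ := by
  apply closure_mono
  intro q hq
  simp only [Function.mem_support, ne_eq] at hq ⊢
  intro h; exact hq (by rw [h]; ring)

lemma hasCompactSupport_sq (h : HasCompactSupport Φ) : HasCompactSupport (fun q => Φ q ^ 2) :=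
  h.comp_left (g := fun s : ℝ => s ^ 2) (by simp)

lemma sum_dx_Sx (φ : (Fin 3 → ℝ) → ℝ) (X : Fin 3 → (Fin 3 → ℝ) → ℝ)
    (Φ : (Fin 3 → ℝ) × ℝ → ℝ) (p : (Fin 3 → ℝ) × ℝ) :
    ∑ i, dx i Φ p * Sx φ X i p = ∑ j, CD φ Φ j p * X j (tub φ p.1 p.2) := by
  unfold Sx CD
  simp_rw [Finset.mul_sum, Finset.sum_mul]
  rw [Finset.sum_comm]
  exact Finset.sum_congr rfl fun j _ => Finset.sum_congr rfl fun i _ => by ring

lemma L0_sq (hΦ : ContDiff ℝ 1 Φ) (p : (Fin 3 → ℝ) × ℝ) :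
    L0 φ X (fun q => Φ q ^ 2) p
      = Φ p ^ 2 * Jl φ p.1 p.2 * Xd φ X p + 2 * Φ p * dt Φ p * Jl φ p.1 p.2 * Xn φ X p
        + 2 * Φ p * ∑ j, CD φ Φ j p * X j (tub φ p.1 p.2) := by
  unfold L0
  rw [dt_sq hΦ, ← sum_dx_Sx]
  simp_rw [dx_sq hΦ]
  rw [Finset.mul_sum]
  congr 1
  exact Finset.sum_congr rfl fun i _ => by ring

lemma CD_normal (hφ : ContDiff ℝ 3 φ) (h : 0 < gs φ p.1) :
    ∑ j, nu φ j p.1 * CD φ Φ j p = 0 := by
  unfold CD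
  simp_rw [Finset.mul_sum]
  rw [Finset.sum_comm]
  refine Finset.sum_eq_zero fun i _ => ?_
  have h1 : ∑ j, nu φ j p.1 * Cl φ j i p.1 p.2 = 0 :=
    aC_normal (l := wn φ p.1) (n := fun i => nu φ i p.1) (B := hB φ p.1)
      (fun i j => hB_symm hφ i j) (sum_nu_sq h) p.2 i
  have h2 : ∀ j, nu φ j p.1 * (Cl φ i j p.1 p.2 * dx i Φ p)
      = (nu φ j p.1 * Cl φ j i p.1 p.2) * dx i Φ p := by
    intro j
    have h3 : Cl φ i j p.1 p.2 = Cl φ j i p.1 p.2 :=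
      aC_symm (l := wn φ p.1) (n := fun i => nu φ i p.1) (B := hB φ p.1)
        (fun i j => hB_symm hφ i j) p.2 i j
    rw [h3]; ring
  rw [Finset.sum_congr rfl fun j _ => h2 j, ← Finset.sum_mul, h1, zero_mul]

lemma sq_key {J a s : ℝ} (hJ : 0 < J) {n Z Y : Fin 3 → ℝ} (hn : ∑ j, n j ^ 2 = 1)
    (hZ : ∑ j, n j * Z j = 0) :
    2 * a * s * J * (∑ j, n j * Y j) + 2 * a * ∑ j, Z j * Y j
      ≤ J * s ^ 2 + (∑ j, Z j ^ 2) / J + J * a ^ 2 * ∑ j, Y j ^ 2 := by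
  have h : 0 ≤ J * ∑ j, (a * Y j - s * n j - Z j / J) ^ 2 :=
    mul_nonneg hJ.le (Finset.sum_nonneg fun _ _ => sq_nonneg _)
  have e : ∀ j, (a * Y j - s * n j - Z j / J) ^ 2
      = a ^ 2 * Y j ^ 2 + s ^ 2 * n j ^ 2 + Z j ^ 2 / J ^ 2 - 2 * a * s * (n j * Y j)
        - 2 * a / J * (Z j * Y j) + 2 * s / J * (n j * Z j) := by
    intro j; field_simp; ring
  simp_rw [e, Finset.sum_add_distrib, Finset.sum_sub_distrib, Finset.sum_add_distrib,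
    ← Finset.mul_sum, ← Finset.sum_div] at h
  rw [hn, hZ] at h
  have e2 : J * (a ^ 2 * ∑ j, Y j ^ 2 + s ^ 2 * 1 + (∑ j, Z j ^ 2) / J ^ 2
      - 2 * a * s * ∑ j, n j * Y j - 2 * a / J * ∑ j, Z j * Y j + 2 * s / J * 0)
      = J * s ^ 2 + (∑ j, Z j ^ 2) / J + J * a ^ 2 * ∑ j, Y j ^ 2
        - (2 * a * s * J * (∑ j, n j * Y j) + 2 * a * ∑ j, Z j * Y j) := by
    field_simp; ring
  rw [e2] at h
  linarith

/-- `(X·Dχ)(x + t n)`. -/
noncomputable def XD (φ : (Fin 3 → ℝ) → ℝ) (X : Fin 3 → (Fin 3 → ℝ) → ℝ)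
    (χ : (Fin 3 → ℝ) → ℝ) (p : (Fin 3 → ℝ) × ℝ) : ℝ :=
  ∑ j, X j (tub φ p.1 p.2) * pd j χ (tub φ p.1 p.2)

/-- The quadratic form density on the tube. -/
noncomputable def QD (φ : (Fin 3 → ℝ) → ℝ) (V : (Fin 3 → ℝ) → ℝ)
    (Φ : (Fin 3 → ℝ) × ℝ → ℝ) (p : (Fin 3 → ℝ) × ℝ) : ℝ :=
  Jl φ p.1 p.2 * dt Φ p ^ 2 + (∑ j, CD φ Φ j p ^ 2) / Jl φ p.1 p.2
    + Jl φ p.1 p.2 * V (tub φ p.1 p.2) * Φ p ^ 2

lemma continuousAt_tub (hφ : ContDiff ℝ 3 φ) (h : 0 < gs φ p.1) :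
    ContinuousAt (fun q : (Fin 3 → ℝ) × ℝ => tub φ q.1 q.2) p := (cda_tub hφ h).continuousAt

lemma continuousAt_QD (hφ : ContDiff ℝ 3 φ) (hV : Continuous V) (hΦ : ContDiff ℝ 1 Φ)
    (h : 0 < gs φ p.1) (hJ : 0 < Jl φ p.1 p.2) : ContinuousAt (QD φ V Φ) p := by
  unfold QD
  have h1 := (cda_Jl hφ h).continuousAt
  have h2 := (continuous_dt hΦ).continuousAt (x := p)
  have h3 : ∀ j, ContinuousAt (CD φ Φ j) p := by
    intro j
    unfold CD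
    exact tendsto_finsetSum _ fun i _ =>
      (cda_Cl hφ h i j).continuousAt.mul (continuous_dx hΦ i).continuousAt
  have h4 : ContinuousAt (fun q : (Fin 3 → ℝ) × ℝ => V (tub φ q.1 q.2)) p :=
    ContinuousAt.comp (f := fun q : (Fin 3 → ℝ) × ℝ => tub φ q.1 q.2) hV.continuousAt
      (continuousAt_tub hφ h)
  have h5 : ContinuousAt (fun q => ∑ j, CD φ Φ j q ^ 2) p :=
    tendsto_finsetSum _ fun j _ => (h3 j).pow 2
  exact ((h1.mul (h2.pow 2)).add (h5.div h1 hJ.ne')).add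
    ((h1.mul h4).mul (hΦ.continuous.continuousAt.pow 2))

lemma CD_zero (hp : p ∉ tsupport Φ) (j : Fin 3) : CD φ Φ j p = 0 := by
  unfold CD
  exact Finset.sum_eq_zero fun i _ => by rw [dx_zero hp, mul_zero]

lemma QD_zero (hp : p ∉ tsupport Φ) : QD φ V Φ p = 0 := by
  unfold QD
  have h0 : Φ p = 0 := image_eq_zero_of_notMem_tsupport hp
  have h1 : ∀ j, CD φ Φ j p = 0 := fun j => CD_zero hp j
  simp [h0, h1, dt_zero hp]

/-- A function continuous at the points of the closed set `K` and vanishing off `K` on a set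
whose ... -/
lemma continuous_of_supp {F : (Fin 3 → ℝ) × ℝ → ℝ} {K : Set ((Fin 3 → ℝ) × ℝ)}
    (hK : IsClosed K) (hF0 : ∀ p ∉ K, F p = 0) (hF : ∀ p ∈ K, ContinuousAt F p) :
    Continuous F := by
  rw [continuous_iff_continuousAt]
  intro p
  by_cases hp : p ∈ K
  · exact hF p hp
  · have h1 : F =ᶠ[𝓝 p] fun _ => 0 := by
      filter_upwards [hK.isOpen_compl.mem_nhds hp] with q hq
      exact hF0 q hq
    exact continuousAt_const.congr h1.symm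

lemma integrable_of_supp {F : (Fin 3 → ℝ) × ℝ → ℝ} (hΦc : HasCompactSupport Φ)
    (hF0 : ∀ p ∉ tsupport Φ, F p = 0) (hF : ∀ p ∈ tsupport Φ, ContinuousAt F p) :
    Integrable F :=
  (continuous_of_supp (isClosed_tsupport Φ) hF0 hF).integrable_of_hasCompactSupport
    (HasCompactSupport.intro hΦc hF0)

lemma continuousAt_XD (hφ : ContDiff ℝ 3 φ) (h : 0 < gs φ p.1)
    (hX : ∀ j, Continuous (X j)) (hχ : ContDiff ℝ 1 χ) :
    ContinuousAt (XD φ X χ) p := by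
  unfold XD
  refine tendsto_finsetSum _ fun j _ => ContinuousAt.mul ?_ ?_
  · exact ContinuousAt.comp (f := fun q : (Fin 3 → ℝ) × ℝ => tub φ q.1 q.2) (hX j).continuousAt
      (continuousAt_tub hφ h)
  · exact ContinuousAt.comp (f := fun q : (Fin 3 → ℝ) × ℝ => tub φ q.1 q.2)
      (continuous_pd hχ).continuousAt (continuousAt_tub hφ h)

/-- **LI2**: the stability inequality on the tubes, with a weight. -/
theorem LI2 (hφ : ContDiff ℝ 3 φ) (hw : ContDiff ℝ 1 w) (hw0 : ∀ s, 0 ≤ w s)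
    (hX : ∀ j, ContDiff ℝ 1 (X j)) (hV : Continuous V) {S : Set (Fin 3 → ℝ)}
    (hXV : ∀ y ∈ S, ∑ j, pd j (X j) y + ∑ j, X j y ^ 2 ≤ V y)
    (hχ : ContDiff ℝ 1 χ) (hχ0 : ∀ y, 0 ≤ χ y)
    (hΦ : ContDiff ℝ 1 Φ) (hΦc : HasCompactSupport Φ)
    (hg : ∀ p ∈ tsupport Φ, 0 < gs φ p.1) (hJ : ∀ p ∈ tsupport Φ, 0 < Jl φ p.1 p.2)
    (hS : ∀ p ∈ tsupport Φ, tub φ p.1 p.2 ∈ S) :
    - ∫ p, w (φ p.1) * (Jl φ p.1 p.2 * Φ p ^ 2 * XD φ X χ p)
      ≤ ∫ p, w (φ p.1) * (χ (tub φ p.1 p.2) * QD φ V Φ p) := by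
  set Y : Fin 3 → (Fin 3 → ℝ) → ℝ := fun j y => χ y * X j y with hY
  have hYc : ∀ j, ContDiff ℝ 1 (Y j) := fun j => hχ.mul (hX j)
  have hsq : ContDiff ℝ 1 (fun q => Φ q ^ 2) := hΦ.pow 2
  obtain ⟨i1, i2⟩ := integral_L0 hφ hw hYc hsq (hasCompactSupport_sq hΦc)
    (fun p hp => hg p (tsupport_sq_subset Φ hp))
  have hwφ : Continuous (fun q : (Fin 3 → ℝ) × ℝ => w (φ q.1)) :=
    (hw.continuous.comp hφ.continuous).comp continuous_fst
  have j1 : Integrable fun p => w (φ p.1) * (Jl φ p.1 p.2 * Φ p ^ 2 * XD φ X χ p) := by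
    refine integrable_of_supp hΦc (fun p hp => ?_) (fun p hp => ?_)
    · rw [image_eq_zero_of_notMem_tsupport hp]; ring
    · exact hwφ.continuousAt.mul ((((cda_Jl hφ (hg p hp)).continuousAt).mul
        (hΦ.continuous.continuousAt.pow 2)).mul
        (continuousAt_XD hφ (hg p hp) (fun j => (hX j).continuous) hχ))
  have j2 : Integrable fun p => w (φ p.1) * (χ (tub φ p.1 p.2) * QD φ V Φ p) := by
    refine integrable_of_supp hΦc (fun p hp => ?_) (fun p hp => ?_)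
    · rw [QD_zero hp]; ring
    · exact hwφ.continuousAt.mul ((ContinuousAt.comp
        (f := fun q : (Fin 3 → ℝ) × ℝ => tub φ q.1 q.2) hχ.continuous.continuousAt
        (continuousAt_tub hφ (hg p hp))).mul (continuousAt_QD hφ hV hΦ (hg p hp) (hJ p hp)))
  have key : ∀ p : (Fin 3 → ℝ) × ℝ, - (w (φ p.1) * (Jl φ p.1 p.2 * Φ p ^ 2 * XD φ X χ p))
      ≤ - (w (φ p.1) * L0 φ Y (fun q => Φ q ^ 2) p)
        + w (φ p.1) * (χ (tub φ p.1 p.2) * QD φ V Φ p) := by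
    intro p
    by_cases hp : p ∈ tsupport Φ
    · set y := tub φ p.1 p.2 with hy
      have e1 : L0 φ Y (fun q => Φ q ^ 2) p
          = Φ p ^ 2 * Jl φ p.1 p.2 * (χ y * Xd φ X p + XD φ X χ p)
            + χ y * (2 * Φ p * dt Φ p * Jl φ p.1 p.2 * Xn φ X p
              + 2 * Φ p * ∑ j, CD φ Φ j p * X j y) := by
        rw [L0_sq hΦ]
        have a1 : Xd φ Y p = χ y * Xd φ X p + XD φ X χ p := by
          unfold Xd XD
          rw [Finset.mul_sum, ← Finset.sum_add_distrib]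
          refine Finset.sum_congr rfl fun j _ => ?_
          rw [pd_mul (hχ.differentiable (by norm_num) _) ((hX j).differentiable (by norm_num) _)]
          try ring
        have a2 : Xn φ Y p = χ y * Xn φ X p := by
          unfold Xn
          rw [Finset.mul_sum]
          exact Finset.sum_congr rfl fun j _ => by rw [hY]; ring
        have a3 : ∑ j, CD φ Φ j p * Y j (tub φ p.1 p.2) = χ y * ∑ j, CD φ Φ j p * X j y := by
          rw [Finset.mul_sum]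
          exact Finset.sum_congr rfl fun j _ => by rw [hY]; ring
        rw [a1, a2, a3]; ring
      have e2 := sq_key (a := Φ p) (s := dt Φ p) (Y := fun j => X j y) (hJ p hp)
        (sum_nu_sq (hg p hp)) (CD_normal (Φ := Φ) hφ (hg p hp))
      have e3 := hXV y (hS p hp)
      have e3' : Φ p ^ 2 * Jl φ p.1 p.2 * (Xd φ X p + ∑ j, X j y ^ 2)
          ≤ Φ p ^ 2 * Jl φ p.1 p.2 * V y :=
        mul_le_mul_of_nonneg_left e3 (mul_nonneg (sq_nonneg _) (hJ p hp).le)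
      have e4 : Φ p ^ 2 * Jl φ p.1 p.2 * Xd φ X p + (2 * Φ p * dt Φ p * Jl φ p.1 p.2 * Xn φ X p
              + 2 * Φ p * ∑ j, CD φ Φ j p * X j y) ≤ QD φ V Φ p := by
        unfold QD
        have e5 : Xn φ X p = ∑ j, nu φ j p.1 * X j y := rfl
        rw [e5]
        linarith
      have e6 := mul_le_mul_of_nonneg_left e4 (mul_nonneg (hw0 (φ p.1)) (hχ0 y))
      rw [e1]
      linarith
    · have z1 : Φ p = 0 := image_eq_zero_of_notMem_tsupport hp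
      have z2 : L0 φ Y (fun q => Φ q ^ 2) p = 0 := by
        rw [L0_sq hΦ, z1]; ring
      rw [z2, z1, QD_zero hp]; simp
  have i1' : Integrable fun p => - (w (φ p.1) * L0 φ Y (fun q => Φ q ^ 2) p) := i1.neg
  calc - ∫ p, w (φ p.1) * (Jl φ p.1 p.2 * Φ p ^ 2 * XD φ X χ p)
      = ∫ p, - (w (φ p.1) * (Jl φ p.1 p.2 * Φ p ^ 2 * XD φ X χ p)) := (integral_neg _).symm
    _ ≤ ∫ p, (- (w (φ p.1) * L0 φ Y (fun q => Φ q ^ 2) p)
        + w (φ p.1) * (χ (tub φ p.1 p.2) * QD φ V Φ p)) :=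
        integral_mono j1.neg (i1'.add j2) key
    _ = ∫ p, w (φ p.1) * (χ (tub φ p.1 p.2) * QD φ V Φ p) := by
        rw [integral_add i1' j2, integral_neg, i2]; simp

/-- **LI4**: the identity with the field `Dχ`. -/
theorem LI4 (hφ : ContDiff ℝ 3 φ) (hw : ContDiff ℝ 1 w) (hχ : ContDiff ℝ 2 χ)
    (hΦ : ContDiff ℝ 1 Φ) (hΦc : HasCompactSupport Φ)
    (hg : ∀ p ∈ tsupport Φ, 0 < gs φ p.1) :
    (Integrable fun p => w (φ p.1) * (Jl φ p.1 p.2 * Φ p ^ 2 * lap χ (tub φ p.1 p.2)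
      + 2 * Jl φ p.1 p.2 * Φ p * dt Φ p * Xn φ (fun j => pd j χ) p
      + 2 * Φ p * ∑ j, CD φ Φ j p * pd j χ (tub φ p.1 p.2))) ∧
    ∫ p, w (φ p.1) * (Jl φ p.1 p.2 * Φ p ^ 2 * lap χ (tub φ p.1 p.2)
      + 2 * Jl φ p.1 p.2 * Φ p * dt Φ p * Xn φ (fun j => pd j χ) p
      + 2 * Φ p * ∑ j, CD φ Φ j p * pd j χ (tub φ p.1 p.2)) = 0 := by
  obtain ⟨i1, i2⟩ := integral_L0 (X := fun j => pd j χ) hφ hw (fun j => contDiff_pd_one hχ)
    (hΦ.pow 2) (hasCompactSupport_sq hΦc) (fun p hp => hg p (tsupport_sq_subset Φ hp))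
  have e : (fun p => w (φ p.1) * L0 φ (fun j => pd j χ) (fun q => Φ q ^ 2) p)
      = fun p => w (φ p.1) * (Jl φ p.1 p.2 * Φ p ^ 2 * lap χ (tub φ p.1 p.2)
      + 2 * Jl φ p.1 p.2 * Φ p * dt Φ p * Xn φ (fun j => pd j χ) p
      + 2 * Φ p * ∑ j, CD φ Φ j p * pd j χ (tub φ p.1 p.2)) := by
    funext p
    rw [L0_sq hΦ]
    have : Xd φ (fun j => pd j χ) p = lap χ (tub φ p.1 p.2) := rfl
    rw [this]; ring
  rw [e] at i1 i2
  exact ⟨i1, i2⟩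

end LI2

end Vale.Agent.P134.H491
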